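import Vale.Agent.P284.H383.Ram3
import Vale.Agent.P284.H661.D.Defs

/-!
# P284 (helper608), project D: the mixed forms are densities, continuous in the parameters

For a Hermitian metric `W` and a function `lam` on `X × ℂᴿ`, jointly smooth, the determinant of the
`(n+1) × (n+1)` matrix `KJ` of `C W + i∂∂̄ lam` on `X × ℂ e_j` is a density on `X`, and so are the mixed
determinants `cfd d (KJ ..) (hatM W)` and `cfd d (MT ..) W`. All of them are jointly continuous in the
point of `X` and the parameters `z` and `t`.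
-/

open scoped Topology ContDiff ComplexConjugate ComplexOrder Manifold
open Filter Set

noncomputable section

namespace Vale.Agent.P284.H608.D

open Vale.Agent.P272.K Vale.Agent.P284.H224.D Vale.Agent.P284.H661.D
open Vale.Agent.P272.K.QN (jm jm_holo dz_comp_F dzb_comp_F jm_mulVec)

/-! ### bordered matrices -/

/-- bordered matrix with last diagonal entry `c` -/
def bd {n m : ℕ} (A : Matrix (Fin n) (Fin m) ℂ) (c : ℂ) : Matrix (Fin (n + 1)) (Fin (m + 1)) ℂ :=
  Matrix.of fun p i => Fin.lastCases (motive := fun _ => ℂ)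
    (Fin.lastCases (motive := fun _ => ℂ) c (fun _ => 0) i)
    (fun p' => Fin.lastCases (motive := fun _ => ℂ) 0 (fun i' => A p' i') i) p

section
variable {n m k : ℕ} (A : Matrix (Fin n) (Fin m) ℂ) (c : ℂ)

@[simp] lemma bd_cc (p : Fin n) (i : Fin m) : bd A c p.castSucc i.castSucc = A p i := by
  simp [bd]

@[simp] lemma bd_cl (p : Fin n) : bd A c p.castSucc (Fin.last m) = 0 := by
  simp [bd]

@[simp] lemma bd_lc (i : Fin m) : bd A c (Fin.last n) i.castSucc = 0 := by
  simp [bd]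

@[simp] lemma bd_ll : bd A c (Fin.last n) (Fin.last m) = c := by
  simp [bd]

lemma bd_mul (B : Matrix (Fin m) (Fin k) ℂ) (d : ℂ) : bd A c * bd B d = bd (A * B) (c * d) := by
  ext p i
  refine Fin.lastCases ?_ (fun p' => ?_) p <;> refine Fin.lastCases ?_ (fun i' => ?_) i <;>
    simp [Matrix.mul_apply, Fin.sum_univ_castSucc]

lemma bd_transpose : (bd A c).transpose = bd A.transpose c := by
  ext p i
  refine Fin.lastCases ?_ (fun p' => ?_) p <;> refine Fin.lastCases ?_ (fun i' => ?_) i <;>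
    simp

lemma bd_map : (bd A c).map (starRingEnd ℂ) = bd (A.map (starRingEnd ℂ)) ((starRingEnd ℂ) c) := by
  ext p i
  refine Fin.lastCases ?_ (fun p' => ?_) p <;> refine Fin.lastCases ?_ (fun i' => ?_) i <;>
    simp

end

lemma hatM_eq {n : ℕ} (A : Matrix (Fin n) (Fin n) ℂ) : hatM A = bd A 0 := by
  ext p i
  refine Fin.lastCases ?_ (fun p' => ?_) p <;> refine Fin.lastCases ?_ (fun i' => ?_) i <;>
    simp [hatM]

lemma det_bd {n : ℕ} (A : Matrix (Fin n) (Fin n) ℂ) (c : ℂ) : (bd A c).det = A.det * c := by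
  have h : bd A c = (Matrix.fromBlocks A 0 0 (Matrix.of fun (_ _ : Fin 1) => c)).submatrix
      finSumFinEquiv.symm finSumFinEquiv.symm := by
    ext p i
    refine Fin.lastCases ?_ (fun p' => ?_) p <;> refine Fin.lastCases ?_ (fun i' => ?_) i
    · simp
    · rw [bd_lc, Matrix.submatrix_apply, finSumFinEquiv_symm_last]
      have : finSumFinEquiv.symm i'.castSucc = (Sum.inl i' : Fin n ⊕ Fin 1) :=
        finSumFinEquiv_symm_apply_castAdd i'
      rw [this]; simp
    · rw [bd_cl, Matrix.submatrix_apply, finSumFinEquiv_symm_last]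
      have : finSumFinEquiv.symm p'.castSucc = (Sum.inl p' : Fin n ⊕ Fin 1) :=
        finSumFinEquiv_symm_apply_castAdd p'
      rw [this]; simp
    · rw [bd_cc, Matrix.submatrix_apply]
      have : finSumFinEquiv.symm p'.castSucc = (Sum.inl p' : Fin n ⊕ Fin 1) :=
        finSumFinEquiv_symm_apply_castAdd p'
      have h2 : finSumFinEquiv.symm i'.castSucc = (Sum.inl i' : Fin n ⊕ Fin 1) :=
        finSumFinEquiv_symm_apply_castAdd i'
      rw [this, h2]; simp
  rw [h, Matrix.det_submatrix_equiv_self, Matrix.det_fromBlocks_zero₂₁]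
  simp

/-- change of the real part of the determinant of a Hermitian form -/
lemma det_conj_re {m : ℕ} (J K : Matrix (Fin m) (Fin m) ℂ) :
    (J.transpose * K * J.map (starRingEnd ℂ)).det.re = K.det.re * ‖J.det‖ ^ 2 := by
  have h1 : (J.map (starRingEnd ℂ)).det = (starRingEnd ℂ) J.det := by
    rw [RingHom.map_det]; rfl
  rw [Matrix.det_mul, Matrix.det_mul, Matrix.det_transpose, h1]
  have h2 : J.det * K.det * (starRingEnd ℂ) J.det = ((‖J.det‖ ^ 2 : ℝ) : ℂ) * K.det := by
    rw [mul_comm J.det, mul_assoc, Complex.mul_conj, Complex.normSq_eq_norm_sq]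
    ring
  rw [h2, Complex.re_ofReal_mul, mul_comm]

/-! ### the coordinates `(y, ζ)` -/

section
variable {n : ℕ}

/-- `(y, ζ) ↦ y` -/
def initL : Cm (n + 1) →L[ℝ] Cm n :=
  ContinuousLinearMap.pi fun i => ContinuousLinearMap.proj (R := ℝ) (φ := fun _ : Fin (n + 1) => ℂ)
    i.castSucc

lemma initL_apply (ζ : Cm (n + 1)) : initL ζ = Fin.init ζ := rfl

/-- `(y, ζ) ↦ y`, complex -/
def initC : Cm (n + 1) →L[ℂ] Cm n :=
  ContinuousLinearMap.pi fun i => ContinuousLinearMap.proj (R := ℂ) (φ := fun _ : Fin (n + 1) => ℂ)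
    i.castSucc

lemma initC_apply (ζ : Cm (n + 1)) : initC ζ = Fin.init ζ := rfl

lemma init_single_castSucc (i : Fin n) (c : ℂ) :
    Fin.init (Pi.single i.castSucc c : Cm (n + 1)) = (Pi.single i c : Cm n) := by
  ext k
  by_cases hk : k = i
  · subst hk; simp [Fin.init]
  · have h : k.castSucc ≠ i.castSucc := fun h => hk (Fin.castSucc_injective _ h)
    simp [Fin.init, Pi.single_eq_of_ne hk, Pi.single_eq_of_ne h]

lemma init_single_last (c : ℂ) :
    Fin.init (Pi.single (Fin.last n) c : Cm (n + 1)) = (0 : Cm n) := by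
  ext k
  have h : k.castSucc ≠ Fin.last n := (Fin.castSucc_lt_last k).ne
  simp [Fin.init]

lemma fderiv_init {g : Cm n → ℂ} {ζ : Cm (n + 1)} (hg : DifferentiableAt ℝ g (Fin.init ζ))
    (v : Cm (n + 1)) :
    fderiv ℝ (fun ζ : Cm (n + 1) => g (Fin.init ζ)) ζ v = fderiv ℝ g (Fin.init ζ) (Fin.init v) := by
  have h1 : HasFDerivAt (fun ζ : Cm (n + 1) => g (initL ζ)) ((fderiv ℝ g (initL ζ)).comp initL) ζ :=
    HasFDerivAt.comp ζ (g := g) (f := fun ζ => initL ζ) hg.hasFDerivAt initL.hasFDerivAt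
  exact congrArg (fun L => L v) h1.fderiv

lemma dz_init_castSucc {g : Cm n → ℂ} {ζ : Cm (n + 1)} (hg : DifferentiableAt ℝ g (Fin.init ζ))
    (i : Fin n) :
    dz i.castSucc (fun ζ : Cm (n + 1) => g (Fin.init ζ)) ζ = dz i g (Fin.init ζ) := by
  unfold dz
  rw [fderiv_init hg, fderiv_init hg, init_single_castSucc, init_single_castSucc]

lemma dz_init_last {g : Cm n → ℂ} {ζ : Cm (n + 1)} (hg : DifferentiableAt ℝ g (Fin.init ζ)) :
    dz (Fin.last n) (fun ζ : Cm (n + 1) => g (Fin.init ζ)) ζ = 0 := by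
  unfold dz
  rw [fderiv_init hg, fderiv_init hg, init_single_last, init_single_last]
  simp

lemma dz_last (i : Fin (n + 1)) (ζ : Cm (n + 1)) :
    dz i (fun ζ : Cm (n + 1) => ζ (Fin.last n)) ζ = if i = Fin.last n then 1 else 0 := by
  have h : DifferentiableAt ℂ (fun ζ : Cm (n + 1) => ζ (Fin.last n)) ζ :=
    (ContinuousLinearMap.proj (R := ℂ) (φ := fun _ : Fin (n + 1) => ℂ)
      (Fin.last n)).differentiableAt
  rw [INT.dz_of_holo h]
  have h2 : fderiv ℂ (fun ζ : Cm (n + 1) => ζ (Fin.last n)) ζ =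
      ContinuousLinearMap.proj (R := ℂ) (φ := fun _ : Fin (n + 1) => ℂ) (Fin.last n) :=
    (ContinuousLinearMap.proj (R := ℂ) (φ := fun _ : Fin (n + 1) => ℂ) (Fin.last n)).fderiv
  rw [h2, ContinuousLinearMap.proj_apply]
  split_ifs with hi
  · subst hi; simp
  · exact Pi.single_eq_of_ne (Ne.symm hi) _

end

section
variable {n R : ℕ} {X : Type} [TopologicalSpace X] [ChartedSpace (Cm n) X]

/-- the change of coordinates on `X × ℂ` -/
def trB (e e' : Chart n X) : Cm (n + 1) → Cm (n + 1) :=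
  fun ζ => Fin.snoc (e' (e.symm (Fin.init ζ))) (ζ (Fin.last n))

lemma trB_omega [IsManifold 𝓘(ℂ, Cm n) ω X] {e e' : Chart n X} {x : X} (hx : At e x)
    (hx' : At e' x) (c : ℂ) : ContDiffAt ℂ ω (trB e e') (Fin.snoc (e x) c) := by
  rw [contDiffAt_pi]
  intro p
  refine Fin.lastCases ?_ (fun p' => ?_) p
  · have : (fun ζ : Cm (n + 1) => trB e e' ζ (Fin.last n)) = fun ζ => ζ (Fin.last n) := by
      ext ζ; simp [trB]
    rw [this]
    exact (ContinuousLinearMap.proj (R := ℂ) (φ := fun _ : Fin (n + 1) => ℂ)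
      (Fin.last n)).contDiff.contDiffAt
  · have : (fun ζ : Cm (n + 1) => trB e e' ζ p'.castSucc) =
        (fun y => e' (e.symm y) p') ∘ fun ζ => initC ζ := by
      ext ζ; simp [trB, initC_apply]
    rw [this]
    refine ContDiffAt.comp _ ?_ initC.contDiff.contDiffAt
    rw [initC_apply, Fin.init_snoc]
    exact (contDiffAt_pi.1 (INT.transition_contDiffAt hx hx')) p'

lemma jm_trB [IsManifold 𝓘(ℂ, Cm n) ω X] {e e' : Chart n X} {x : X} (hx : At e x)
    (hx' : At e' x) (c : ℂ) : jm (trB e e') (Fin.snoc (e x) c) = bd (jacM e e' x) 1 := by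
  have hT : DifferentiableAt ℂ (fun y => e' (e.symm y)) (e x) :=
    (INT.transition_contDiffAt hx hx').differentiableAt (by simp)
  have hTp : ∀ p', DifferentiableAt ℝ (fun y => e' (e.symm y) p')
      (Fin.init (Fin.snoc (e x) c : Cm (n + 1))) := by
    intro p'
    rw [Fin.init_snoc]
    exact (differentiableAt_pi.1 hT p').restrictScalars ℝ
  ext p i
  show dz i (fun ζ => trB e e' ζ p) (Fin.snoc (e x) c) = _
  refine Fin.lastCases ?_ (fun p' => ?_) p
  · have : (fun ζ : Cm (n + 1) => trB e e' ζ (Fin.last n)) = fun ζ => ζ (Fin.last n) := by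
      ext ζ; simp [trB]
    rw [this, dz_last]
    refine Fin.lastCases ?_ (fun i' => ?_) i
    · simp
    · rw [if_neg (Fin.castSucc_lt_last i').ne, bd_lc]
  · have : (fun ζ : Cm (n + 1) => trB e e' ζ p'.castSucc) =
        fun ζ => (fun y => e' (e.symm y) p') (Fin.init ζ) := by
      ext ζ; simp [trB]
    rw [this]
    refine Fin.lastCases ?_ (fun i' => ?_) i
    · rw [dz_init_last (hTp p'), bd_cl]
    · rw [dz_init_castSucc (hTp p'), bd_cc, Fin.init_snoc]
      rfl

variable {lam : X → Cm R → ℝ}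

lemma pj_smooth (hl : JSm (n := n) lam) {e : Chart n X} {x : X} (hx : At e x) (z : Cm R)
    (j : Fin R) (c : ℂ) : ContDiffAt ℝ ∞ (pj lam e z j) (Fin.snoc (e x) c) :=
  (pj_ev hl hx z j c).self_of_nhds

/-- `y ↦ (y, c)` is smooth -/
lemma snoc_contDiff (c : ℂ) : ContDiff ℝ ∞ (fun y : Cm n => (Fin.snoc y c : Cm (n + 1))) := by
  rw [contDiff_pi]
  intro p
  refine Fin.lastCases ?_ (fun p' => ?_) p
  · simp only [Fin.snoc_last]; exact contDiff_const
  · simp only [Fin.snoc_castSucc]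
    exact (ContinuousLinearMap.proj (R := ℝ) (φ := fun _ : Fin n => ℂ) p').contDiff

lemma HB_smooth (hl : JSm (n := n) lam) {e : Chart n X} {x : X} (hx : At e x) (z : Cm R)
    (j : Fin R) (p i : Fin (n + 1)) : ContDiffAt ℝ ∞ (fun y => HB lam e z j y p i) (e x) := by
  have h1 : ContDiffAt ℝ ∞ (fun ζ => cHess (pj lam e z j) ζ p i)
      (Fin.snoc (e x) (0 : ℂ) : Cm (n + 1)) :=
    C2.contDiffAt_cHess (pj_smooth hl hx z j 0) (le_of_eq rfl) p i
  exact ContDiffAt.comp (e x) (g := fun ζ => cHess (pj lam e z j) ζ p i)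
    (f := fun y : Cm n => (Fin.snoc y (0 : ℂ) : Cm (n + 1))) h1 (snoc_contDiff 0).contDiffAt

lemma HB_change [IsManifold 𝓘(ℂ, Cm n) ω X] (hl : JSm (n := n) lam) {e e' : Chart n X} {x : X}
    (hx : At e x) (hx' : At e' x) (z : Cm R) (j : Fin R) :
    HB lam e z j (e x) = (bd (jacM e e' x) 1).transpose * HB lam e' z j (e' x) *
      (bd (jacM e e' x) 1).map (starRingEnd ℂ) := by
  have hT0 : trB e e' (Fin.snoc (e x) (0 : ℂ)) = Fin.snoc (e' x) (0 : ℂ) := by
    simp only [trB, Fin.init_snoc, Fin.snoc_last]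
    rw [e.left_inv hx.2]
  have hev : pj lam e z j =ᶠ[𝓝 (Fin.snoc (e x) (0 : ℂ) : Cm (n + 1))]
      fun ζ => pj lam e' z j (trB e e' ζ) := by
    have hc : ContinuousAt (fun ζ : Cm (n + 1) => e.symm (Fin.init ζ))
        (Fin.snoc (e x) (0 : ℂ) : Cm (n + 1)) := by
      refine ContinuousAt.comp (g := e.symm) (f := fun ζ : Cm (n + 1) => Fin.init ζ) ?_
        initL.continuous.continuousAt
      rw [Fin.init_snoc]
      exact e.continuousAt_symm (e.map_source hx.2)
    have hn : e'.source ∈ 𝓝 (e.symm (Fin.init (Fin.snoc (e x) (0 : ℂ) : Cm (n + 1)))) := by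
      rw [Fin.init_snoc, e.left_inv hx.2]
      exact e'.open_source.mem_nhds hx'.2
    filter_upwards [hc.eventually hn] with ζ hζ
    simp only [pj, trB, Fin.init_snoc, Fin.snoc_last]
    rw [e'.left_inv hζ]
  have hcc : cHess (pj lam e z j) (Fin.snoc (e x) (0 : ℂ)) =
      cHess (fun ζ => pj lam e' z j (trB e e' ζ)) (Fin.snoc (e x) (0 : ℂ)) := cHess_congr hev
  unfold HB
  rw [hcc, H383.cHess_comp_holo (Φ := trB e e') ?_ (trB_omega hx hx' 0), jm_trB hx hx', hT0]
  rw [hT0]
  exact (pj_smooth hl hx' z j 0).of_le (by norm_cast)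

variable {W : Chart n X → Cm n → Matrix (Fin n) (Fin n) ℂ} {psi : X → ℝ}

lemma KJ_change [IsManifold 𝓘(ℂ, Cm n) ω X] (hw : IsHermitian W) (C : ℝ)
    (hl : JSm (n := n) lam) {e e' : Chart n X} {x : X}
    (hx : At e x) (hx' : At e' x) (z : Cm R) (j : Fin R) :
    KJ C W lam e (e x) z j = (bd (jacM e e' x) 1).transpose * KJ C W lam e' (e' x) z j *
      (bd (jacM e e' x) 1).map (starRingEnd ℂ) := by
  unfold KJ
  rw [HB_change hl hx hx' z j, Matrix.mul_add, Matrix.add_mul]
  congr 1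
  rw [hatM_eq, hatM_eq, hw.change e e' x hx hx', bd_transpose, bd_map, Matrix.mul_smul,
    Matrix.smul_mul, bd_mul, bd_mul]
  simp

omit [ChartedSpace (Cm n) X] in
lemma KJ_add_smul (C : ℝ) (l : ℝ) (e : Chart n X) (y : Cm n) (z : Cm R) (j : Fin R) :
    KJ C W lam e y z j + (l : ℂ) • hatM (W e y) = KJ (C + l) W lam e y z j := by
  unfold KJ
  rw [Complex.ofReal_add, add_smul]
  abel

omit [ChartedSpace (Cm n) X] in
lemma MT_add_smul (C : ℝ) (l t : ℝ) (e : Chart n X) (y : Cm n) (z : Cm R) :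
    MT C W psi lam t e y z + (l : ℂ) • W e y = MT (C + l) W psi lam t e y z := by
  unfold MT
  rw [Complex.ofReal_add, add_smul]
  abel

lemma hatM_smooth (hw : IsHermitian W) {e : Chart n X} {x : X} (hx : At e x)
    (p i : Fin (n + 1)) : ContDiffAt ℝ ∞ (fun y => hatM (W e y) p i) (e x) := by
  refine Fin.lastCases ?_ (fun p' => ?_) p <;> refine Fin.lastCases ?_ (fun i' => ?_) i <;>
    simp only [hatM_ll, hatM_lc, hatM_cl, hatM_cc]
  · exact contDiffAt_const
  · exact contDiffAt_const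
  · exact contDiffAt_const
  · exact hw.smooth e x hx p' i'

lemma KJ_smooth (hw : IsHermitian W) (C : ℝ) (hl : JSm (n := n) lam) {e : Chart n X} {x : X}
    (hx : At e x) (z : Cm R) (j : Fin R) (p i : Fin (n + 1)) :
    ContDiffAt ℝ ∞ (fun y => KJ C W lam e y z j p i) (e x) :=
  (contDiffAt_const.mul (hatM_smooth hw hx p i)).add (HB_smooth hl hx z j p i)

/-- **the determinant of the mixed form is a density** -/
theorem isDensity_KJ [IsManifold 𝓘(ℂ, Cm n) ω X] (hw : IsHermitian W) (C : ℝ)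
    (hl : JSm (n := n) lam) (z : Cm R) (j : Fin R) :
    INT.IsDensity (fun (e : Chart n X) y => (KJ C W lam e y z j).det.re) where
  cont e x hx := by
    have h1 : ContinuousAt (fun y => (KJ C W lam e y z j).det) (e x) := by
      simp only [Matrix.det_apply']
      refine tendsto_finsetSum _ fun s _ => ?_
      exact tendsto_const_nhds.mul (tendsto_finsetProd _ fun a _ =>
        (KJ_smooth hw C hl hx z j _ _).continuousAt)
    exact Complex.continuous_re.continuousAt.comp h1
  change e e' x hx hx' := by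
    show (KJ C W lam e (e x) z j).det.re = (KJ C W lam e' (e' x) z j).det.re * _
    rw [KJ_change hw C hl hx hx' z j, det_conj_re, det_bd, mul_one]

theorem isDensity_cfdK [IsManifold 𝓘(ℂ, Cm n) ω X] (hw : IsHermitian W) (C : ℝ)
    (hl : JSm (n := n) lam) (s : ℕ) (z : Cm R) (j : Fin R) :
    INT.IsDensity (fun (e : Chart n X) y => cfd s (KJ C W lam e y z j) (hatM (W e y))) := by
  unfold cfd
  refine INT.IsDensity.sum Finset.univ fun l _ => ?_
  simp only [KJ_add_smul]
  exact (isDensity_KJ hw _ hl z j).const_mul _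

/-! ### the forms on `X` -/

/-- the function `psi + t (lam(., z) - psi)` -/
def mx (psi : X → ℝ) (lam : X → Cm R → ℝ) (t : ℝ) (z : Cm R) (x : X) : ℝ :=
  psi x + t * (lam x z - psi x)

lemma mx_smooth (hp : SmoothFn (n := n) psi) (hl : JSm (n := n) lam) (t : ℝ) (z : Cm R) :
    SmoothFn (n := n) (mx psi lam t z) := by
  intro e x hx
  exact (hp e x hx).add (contDiffAt_const.mul ((hl.left hx z).sub (hp e x hx)))

lemma MT_change [IsManifold 𝓘(ℂ, Cm n) ω X] (hw : IsHermitian W) (C : ℝ)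
    (hp : SmoothFn (n := n) psi) (hl : JSm (n := n) lam) {e e' : Chart n X} {x : X}
    (hx : At e x) (hx' : At e' x) (t : ℝ) (z : Cm R) :
    MT C W psi lam t e (e x) z = (jacM e e' x).transpose * MT C W psi lam t e' (e' x) z *
      (jacM e e' x).map (starRingEnd ℂ) := by
  have h1 : cHess (fun y => mx psi lam t z (e.symm y)) (e x) = (jacM e e' x).transpose *
      cHess (fun y => mx psi lam t z (e'.symm y)) (e' x) * (jacM e e' x).map (starRingEnd ℂ) := by
    have hu := mx_smooth hp hl t z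
    have hev : (fun y => mx psi lam t z (e.symm y)) =ᶠ[𝓝 (e x)]
        fun y => (fun y => mx psi lam t z (e'.symm y)) ((fun y => e' (e.symm y)) y) := by
      have hc : ContinuousAt e.symm (e x) := e.continuousAt_symm (e.map_source hx.2)
      have hn : e'.source ∈ 𝓝 (e.symm (e x)) := by
        rw [e.left_inv hx.2]
        exact e'.open_source.mem_nhds hx'.2
      filter_upwards [hc.eventually hn] with y hy
      show mx psi lam t z (e.symm y) = mx psi lam t z (e'.symm (e' (e.symm y)))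
      rw [e'.left_inv hy]
    have h0 : e' (e.symm (e x)) = e' x := by rw [e.left_inv hx.2]
    have hm : jm (fun y => e' (e.symm y)) (e x) = jacM e e' x := rfl
    have h2 : ContDiffAt ℝ 2 (fun y => mx psi lam t z (e'.symm y)) (e' (e.symm (e x))) := by
      rw [h0]
      exact (hu e' x hx').of_le (by norm_cast)
    have h3 := H383.cHess_comp_holo (Φ := fun y => e' (e.symm y)) h2
      (INT.transition_contDiffAt hx hx')
    rw [h0, hm] at h3
    rw [cHess_congr hev]
    exact h3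
  unfold MT
  rw [Matrix.mul_add, Matrix.add_mul, Matrix.mul_smul, Matrix.smul_mul,
    ← hw.change e e' x hx hx']
  congr 1

lemma MT_smooth (hw : IsHermitian W) (C : ℝ) (hp : SmoothFn (n := n) psi)
    (hl : JSm (n := n) lam) {e : Chart n X} {x : X}
    (hx : At e x) (t : ℝ) (z : Cm R) (p i : Fin n) :
    ContDiffAt ℝ ∞ (fun y => MT C W psi lam t e y z p i) (e x) :=
  (contDiffAt_const.mul (hw.smooth e x hx p i)).add
    (C2.contDiffAt_cHess (mx_smooth hp hl t z e x hx) (le_of_eq rfl) p i)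

theorem isDensity_MT [IsManifold 𝓘(ℂ, Cm n) ω X] (hw : IsHermitian W) (C : ℝ)
    (hp : SmoothFn (n := n) psi) (hl : JSm (n := n) lam) (t : ℝ) (z : Cm R) :
    INT.IsDensity (fun (e : Chart n X) y => (MT C W psi lam t e y z).det.re) where
  cont e x hx := by
    have h1 : ContinuousAt (fun y => (MT C W psi lam t e y z).det) (e x) := by
      simp only [Matrix.det_apply']
      refine tendsto_finsetSum _ fun s _ => ?_
      exact tendsto_const_nhds.mul (tendsto_finsetProd _ fun a _ =>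
        (MT_smooth hw C hp hl hx t z _ _).continuousAt)
    exact Complex.continuous_re.continuousAt.comp h1
  change e e' x hx hx' := by
    show (MT C W psi lam t e (e x) z).det.re = (MT C W psi lam t e' (e' x) z).det.re * _
    rw [MT_change hw C hp hl hx hx' t z, det_conj_re]

theorem isDensity_cfdM [IsManifold 𝓘(ℂ, Cm n) ω X] (hw : IsHermitian W) (C : ℝ)
    (hp : SmoothFn (n := n) psi) (hl : JSm (n := n) lam) (s : ℕ) (t : ℝ) (z : Cm R) :
    INT.IsDensity (fun (e : Chart n X) y => cfd s (MT C W psi lam t e y z) (W e y)) := by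
  unfold cfd
  refine INT.IsDensity.sum Finset.univ fun l _ => ?_
  simp only [MT_add_smul]
  exact (isDensity_MT hw _ hp hl t z).const_mul _

/-- multiplication by a function of `X` which is smooth in the charts -/
lemma isDensity_smul {D : Chart n X → Cm n → ℝ} (hD : INT.IsDensity D) {f : X → ℝ}
    (hf : SmoothFn (n := n) f) : INT.IsDensity (fun (e : Chart n X) y => f (e.symm y) * D e y) where
  cont e x hx := (hf e x hx).continuousAt.mul (hD.cont e x hx)
  change e e' x hx hx' := by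
    show f (e.symm (e x)) * D e (e x) = f (e'.symm (e' x)) * D e' (e' x) * _
    rw [hD.change e e' x hx hx', e.left_inv hx.2, e'.left_inv hx'.2]; ring

theorem isDensity_u [IsManifold 𝓘(ℂ, Cm n) ω X] (hw : IsHermitian W) (C : ℝ)
    (hp : SmoothFn (n := n) psi) (hl : JSm (n := n) lam) (s : ℕ) (t : ℝ) (z : Cm R) :
    INT.IsDensity (fun (e : Chart n X) y =>
      (lam (e.symm y) z - psi (e.symm y)) * cfd s (MT C W psi lam t e y z) (W e y)) :=
  isDensity_smul (isDensity_cfdM hw C hp hl s t z) (f := fun x => lam x z - psi x)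
    fun e x hx => (hl.left hx z).sub (hp e x hx)

end

/-! ### joint smoothness in the parameters -/

section
variable {E : Type*} [NormedAddCommGroup E] [NormedSpace ℝ E]

/-- Wirtinger derivative in the directions `u` (real) and `v` (imaginary) -/
def dD (u v : E) (F : E → ℂ) (q : E) : ℂ := (fderiv ℝ F q u - Complex.I * fderiv ℝ F q v) / 2

/-- conjugate Wirtinger derivative in the directions `u` (real) and `v` (imaginary) -/
def dDb (u v : E) (F : E → ℂ) (q : E) : ℂ := (fderiv ℝ F q u + Complex.I * fderiv ℝ F q v) / 2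

lemma dD_smooth {u v : E} {F : E → ℂ} {q : E} (hF : ContDiffAt ℝ ∞ F q) :
    ContDiffAt ℝ ∞ (dD u v F) q := by
  have h1 : ContDiffAt ℝ ∞ (fderiv ℝ F) q := hF.fderiv_right (le_of_eq rfl)
  exact ((h1.clm_apply contDiffAt_const).sub
    (contDiffAt_const.mul (h1.clm_apply contDiffAt_const))).div_const _

lemma dDb_smooth {u v : E} {F : E → ℂ} {q : E} (hF : ContDiffAt ℝ ∞ F q) :
    ContDiffAt ℝ ∞ (dDb u v F) q := by
  have h1 : ContDiffAt ℝ ∞ (fderiv ℝ F) q := hF.fderiv_right (le_of_eq rfl)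
  exact ((h1.clm_apply contDiffAt_const).add
    (contDiffAt_const.mul (h1.clm_apply contDiffAt_const))).div_const _

variable {m : ℕ} (L : Cm m →L[ℝ] E) (b : E)

lemma dz_aff {F : E → ℂ} {ζ : Cm m} (hF : DifferentiableAt ℝ F (b + L ζ)) (i : Fin m) :
    dz i (fun ζ => F (b + L ζ)) ζ =
      dD (L (Pi.single i 1)) (L (Pi.single i Complex.I)) F (b + L ζ) := by
  have h1 : HasFDerivAt (fun ζ => F (b + L ζ)) ((fderiv ℝ F (b + L ζ)).comp L) ζ :=
    HasFDerivAt.comp ζ (g := F) (f := fun ζ => b + L ζ) hF.hasFDerivAt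
      (L.hasFDerivAt.const_add b)
  unfold dz dD
  rw [h1.fderiv]
  rfl

lemma dzb_aff {F : E → ℂ} {ζ : Cm m} (hF : DifferentiableAt ℝ F (b + L ζ)) (i : Fin m) :
    dzb i (fun ζ => F (b + L ζ)) ζ =
      dDb (L (Pi.single i 1)) (L (Pi.single i Complex.I)) F (b + L ζ) := by
  have h1 : HasFDerivAt (fun ζ => F (b + L ζ)) ((fderiv ℝ F (b + L ζ)).comp L) ζ :=
    HasFDerivAt.comp ζ (g := F) (f := fun ζ => b + L ζ) hF.hasFDerivAt
      (L.hasFDerivAt.const_add b)
  unfold dzb dDb
  rw [h1.fderiv]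
  rfl

lemma cHess_aff {F : E → ℝ} {ζ : Cm m} (hF : ContDiffAt ℝ 2 F (b + L ζ)) (i k : Fin m) :
    cHess (fun ζ => F (b + L ζ)) ζ i k =
      dD (L (Pi.single i 1)) (L (Pi.single i Complex.I))
        (dDb (L (Pi.single k 1)) (L (Pi.single k Complex.I)) fun q => (F q : ℂ)) (b + L ζ) := by
  have hF' : ContDiffAt ℝ 2 (fun q => (F q : ℂ)) (b + L ζ) :=
    Complex.ofRealCLM.contDiff.contDiffAt.comp _ hF
  have hev : ∀ᶠ η in 𝓝 ζ, DifferentiableAt ℝ (fun q => (F q : ℂ)) (b + L η) := by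
    have h1 : ∀ᶠ q in 𝓝 (b + L ζ), DifferentiableAt ℝ (fun q => (F q : ℂ)) q := by
      filter_upwards [hF'.eventually (by simp)] with q hq
      exact hq.differentiableAt (by norm_num)
    exact (continuous_const.add L.continuous).continuousAt.eventually h1
  have hd : DifferentiableAt ℝ (dDb (L (Pi.single k 1)) (L (Pi.single k Complex.I))
      fun q => (F q : ℂ)) (b + L ζ) := by
    have h1 : ContDiffAt ℝ 1 (fderiv ℝ fun q => (F q : ℂ)) (b + L ζ) :=
      hF'.fderiv_right (by norm_num)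
    have h2 : ContDiffAt ℝ 1 (dDb (L (Pi.single k 1)) (L (Pi.single k Complex.I))
        fun q => (F q : ℂ)) (b + L ζ) :=
      ((h1.clm_apply contDiffAt_const).add
        (contDiffAt_const.mul (h1.clm_apply contDiffAt_const))).div_const _
    exact h2.differentiableAt (by norm_num)
  show dz i (dzb k fun η => ((F (b + L η) : ℝ) : ℂ)) ζ = _
  have h2 : dzb k (fun η => ((F (b + L η) : ℝ) : ℂ)) =ᶠ[𝓝 ζ] fun η =>
      dDb (L (Pi.single k 1)) (L (Pi.single k Complex.I)) (fun q => (F q : ℂ)) (b + L η) := by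
    filter_upwards [hev] with η hη
    exact dzb_aff L b hη k
  rw [INT.dz_congr h2, dz_aff L b hd i]

end

section
variable {n R : ℕ} {X : Type} [TopologicalSpace X] [ChartedSpace (Cm n) X]
  {lam : X → Cm R → ℝ} {W : Chart n X → Cm n → Matrix (Fin n) (Fin n) ℂ} {psi : X → ℝ}

/-- the linear part of `(y, ζ) ↦ (y, ζ e_j)` -/
def Lj (n : ℕ) (j : Fin R) : Cm (n + 1) →L[ℝ] Cm n × Cm R :=
  initL.prod ((ContinuousLinearMap.single ℝ (fun _ : Fin R => ℂ) j).comp
    (ContinuousLinearMap.proj (R := ℝ) (φ := fun _ : Fin (n + 1) => ℂ) (Fin.last n)))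

lemma Lj_apply (j : Fin R) (ζ : Cm (n + 1)) :
    Lj n j ζ = (Fin.init ζ, Pi.single j (ζ (Fin.last n))) := rfl

/-- **the mixed Hessian is jointly smooth in the point of `X` and the parameter** -/
theorem HB_joint (hl : JSm (n := n) lam) {e : Chart n X} {x : X} (hx : At e x) (z : Cm R)
    (j : Fin R) (p i : Fin (n + 1)) :
    ContDiffAt ℝ ∞ (fun q : Cm n × Cm R => HB lam e q.2 j q.1 p i) (e x, z) := by
  set F : Cm n × Cm R → ℝ := fun q => lam (e.symm q.1) q.2 with hF
  have hl1 : ContDiffAt ℝ ∞ F (e x, z) := hl e x hx z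
  have hF' : ContDiffAt ℝ ∞ (fun q => (F q : ℂ)) (e x, z) :=
    Complex.ofRealCLM.contDiff.contDiffAt.comp _ hl1
  refine (dD_smooth (u := Lj n j (Pi.single p 1)) (v := Lj n j (Pi.single p Complex.I))
    (dDb_smooth (u := Lj n j (Pi.single i 1)) (v := Lj n j (Pi.single i Complex.I))
      hF')).congr_of_eventuallyEq ?_
  have h2 : ContDiffAt ℝ 2 F (e x, z) := hl1.of_le (by norm_cast)
  filter_upwards [h2.eventually (by simp)] with q hq
  have h4 : pj lam e q.2 j = fun ζ => F ((0, q.2) + Lj n j ζ) := by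
    funext ζ
    simp [pj, hF, Lj_apply]
  have h3 : ((0 : Cm n), q.2) + Lj n j (Fin.snoc q.1 0) = q := by
    rw [Lj_apply]
    simp
  unfold HB
  rw [h4, cHess_aff (Lj n j) (0, q.2) (by rw [h3]; exact hq) p i, h3]

theorem KJ_joint (hw : IsHermitian W) (C : ℝ) (hl : JSm (n := n) lam) {e : Chart n X} {x : X}
    (hx : At e x) (z : Cm R) (j : Fin R) (p i : Fin (n + 1)) :
    ContDiffAt ℝ ∞ (fun q : Cm n × Cm R => KJ C W lam e q.1 q.2 j p i) (e x, z) :=
  (contDiffAt_const.mul (ContDiffAt.comp (e x, z) (g := fun y => hatM (W e y) p i)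
    (f := Prod.fst) (hatM_smooth hw hx p i) contDiffAt_fst)).add (HB_joint hl hx z j p i)

theorem detK_joint (hw : IsHermitian W) (C : ℝ) (hl : JSm (n := n) lam) {e : Chart n X} {x : X}
    (hx : At e x) (z : Cm R) (j : Fin R) :
    ContDiffAt ℝ ∞ (fun q : Cm n × Cm R => (KJ C W lam e q.1 q.2 j).det.re) (e x, z) := by
  have h1 : ContDiffAt ℝ ∞ (fun q : Cm n × Cm R => (KJ C W lam e q.1 q.2 j).det) (e x, z) := by
    simp only [Matrix.det_apply']
    refine ContDiffAt.sum fun s _ => contDiffAt_const.mul (contDiffAt_prod fun a _ => ?_)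
    exact KJ_joint hw C hl hx z j _ _
  exact Complex.reCLM.contDiff.contDiffAt.comp _ h1

theorem cfdK_joint (hw : IsHermitian W) (C : ℝ) (hl : JSm (n := n) lam) (s : ℕ) {e : Chart n X}
    {x : X} (hx : At e x) (z : Cm R) (j : Fin R) :
    ContDiffAt ℝ ∞ (fun q : Cm n × Cm R =>
      cfd s (KJ C W lam e q.1 q.2 j) (hatM (W e q.1))) (e x, z) := by
  unfold cfd
  simp only [KJ_add_smul]
  exact ContDiffAt.sum fun l _ => contDiffAt_const.mul (detK_joint hw _ hl hx z j)

/-- the complex Hessian along `X` is jointly smooth -/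
theorem hessX_joint (hl : JSm (n := n) lam) {e : Chart n X} {x : X} (hx : At e x) (z : Cm R)
    (p i : Fin n) :
    ContDiffAt ℝ ∞ (fun q : Cm n × Cm R => cHess (fun y => lam (e.symm y) q.2) q.1 p i)
      (e x, z) := by
  set F : Cm n × Cm R → ℝ := fun q => lam (e.symm q.1) q.2 with hF
  have hl1 : ContDiffAt ℝ ∞ F (e x, z) := hl e x hx z
  have hF' : ContDiffAt ℝ ∞ (fun q => (F q : ℂ)) (e x, z) :=
    Complex.ofRealCLM.contDiff.contDiffAt.comp _ hl1
  set L : Cm n →L[ℝ] Cm n × Cm R := ContinuousLinearMap.inl ℝ (Cm n) (Cm R) with hL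
  refine (dD_smooth (u := L (Pi.single p 1)) (v := L (Pi.single p Complex.I))
    (dDb_smooth (u := L (Pi.single i 1)) (v := L (Pi.single i Complex.I))
      hF')).congr_of_eventuallyEq ?_
  have h2 : ContDiffAt ℝ 2 F (e x, z) := hl1.of_le (by norm_cast)
  filter_upwards [h2.eventually (by simp)] with q hq
  have h4 : (fun y => lam (e.symm y) q.2) = fun y => F ((0, q.2) + L y) := by
    funext y
    simp [hF, hL]
  have h3 : ((0 : Cm n), q.2) + L q.1 = q := by
    simp [hL]
  rw [h4, cHess_aff L (0, q.2) (by rw [h3]; exact hq) p i, h3]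

/-- joint continuity in `(t, z)` and the point -/
theorem MT_joint (hw : IsHermitian W) (C : ℝ) (hp : SmoothFn (n := n) psi)
    (hl : JSm (n := n) lam) {e : Chart n X} {x : X} (hx : At e x) (t : ℝ) (z : Cm R)
    (p i : Fin n) :
    ContDiffAt ℝ ∞ (fun q : Cm n × (ℝ × Cm R) => MT C W psi lam q.2.1 e q.1 q.2.2 p i)
      (e x, (t, z)) := by
  set F : Cm n × (ℝ × Cm R) → ℝ :=
    fun q => psi (e.symm q.1) + q.2.1 * (lam (e.symm q.1) q.2.2 - psi (e.symm q.1)) with hF
  have h0 : ContDiffAt ℝ ∞ (fun q : Cm n × (ℝ × Cm R) => psi (e.symm q.1)) (e x, (t, z)) :=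
    ContDiffAt.comp (e x, (t, z)) (g := fun y => psi (e.symm y)) (f := Prod.fst)
      (hp e x hx) contDiffAt_fst
  have h0' : ContDiffAt ℝ ∞ (fun q : Cm n × (ℝ × Cm R) => lam (e.symm q.1) q.2.2)
      (e x, (t, z)) :=
    ContDiffAt.comp (e x, (t, z)) (g := fun q : Cm n × Cm R => lam (e.symm q.1) q.2)
      (f := fun q : Cm n × (ℝ × Cm R) => (q.1, q.2.2)) (hl e x hx z)
      (contDiffAt_fst.prodMk (contDiffAt_snd.comp _ contDiffAt_snd))
  have hl1 : ContDiffAt ℝ ∞ F (e x, (t, z)) :=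
    h0.add ((contDiffAt_fst.comp _ contDiffAt_snd).mul (h0'.sub h0))
  have hF' : ContDiffAt ℝ ∞ (fun q => (F q : ℂ)) (e x, (t, z)) :=
    Complex.ofRealCLM.contDiff.contDiffAt.comp _ hl1
  set L : Cm n →L[ℝ] Cm n × (ℝ × Cm R) := ContinuousLinearMap.inl ℝ (Cm n) (ℝ × Cm R) with hL
  have h1 : ContDiffAt ℝ ∞ (fun q : Cm n × (ℝ × Cm R) => cHess (fun y => psi (e.symm y) +
      q.2.1 * (lam (e.symm y) q.2.2 - psi (e.symm y))) q.1 p i) (e x, (t, z)) := by
    refine (dD_smooth (u := L (Pi.single p 1)) (v := L (Pi.single p Complex.I))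
      (dDb_smooth (u := L (Pi.single i 1)) (v := L (Pi.single i Complex.I))
        hF')).congr_of_eventuallyEq ?_
    have h2 : ContDiffAt ℝ 2 F (e x, (t, z)) := hl1.of_le (by norm_cast)
    filter_upwards [h2.eventually (by simp)] with q hq
    have h4 : (fun y => psi (e.symm y) + q.2.1 * (lam (e.symm y) q.2.2 - psi (e.symm y))) =
        fun y => F ((0, q.2) + L y) := by
      funext y
      simp [hF, hL]
    have h3 : ((0 : Cm n), q.2) + L q.1 = q := by
      simp [hL]
    rw [h4, cHess_aff L (0, q.2) (by rw [h3]; exact hq) p i, h3]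
  exact (contDiffAt_const.mul (ContDiffAt.comp (e x, (t, z)) (g := fun y => W e y p i)
    (f := Prod.fst) (hw.smooth e x hx p i) contDiffAt_fst)).add h1

theorem detM_joint (hw : IsHermitian W) (C : ℝ) (hp : SmoothFn (n := n) psi)
    (hl : JSm (n := n) lam) {e : Chart n X} {x : X} (hx : At e x) (t : ℝ) (z : Cm R) :
    ContDiffAt ℝ ∞ (fun q : Cm n × (ℝ × Cm R) =>
      (MT C W psi lam q.2.1 e q.1 q.2.2).det.re) (e x, (t, z)) := by
  have h1 : ContDiffAt ℝ ∞ (fun q : Cm n × (ℝ × Cm R) =>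
      (MT C W psi lam q.2.1 e q.1 q.2.2).det) (e x, (t, z)) := by
    simp only [Matrix.det_apply']
    refine ContDiffAt.sum fun s _ => contDiffAt_const.mul (contDiffAt_prod fun a _ => ?_)
    exact MT_joint hw C hp hl hx t z _ _
  exact Complex.reCLM.contDiff.contDiffAt.comp _ h1

theorem cfdM_joint (hw : IsHermitian W) (C : ℝ) (hp : SmoothFn (n := n) psi)
    (hl : JSm (n := n) lam) (s : ℕ) {e : Chart n X} {x : X} (hx : At e x) (t : ℝ) (z : Cm R) :
    ContDiffAt ℝ ∞ (fun q : Cm n × (ℝ × Cm R) =>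
      cfd s (MT C W psi lam q.2.1 e q.1 q.2.2) (W e q.1)) (e x, (t, z)) := by
  unfold cfd
  simp only [MT_add_smul]
  exact ContDiffAt.sum fun l _ => contDiffAt_const.mul (detM_joint hw _ hp hl hx t z)

/-- the integrand of `uz`, jointly smooth -/
theorem u_joint (hw : IsHermitian W) (C : ℝ) (hp : SmoothFn (n := n) psi)
    (hl : JSm (n := n) lam) (s : ℕ) {e : Chart n X} {x : X} (hx : At e x) (t : ℝ) (z : Cm R) :
    ContDiffAt ℝ ∞ (fun q : Cm n × (ℝ × Cm R) =>
      (lam (e.symm q.1) q.2.2 - psi (e.symm q.1)) *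
        cfd s (MT C W psi lam q.2.1 e q.1 q.2.2) (W e q.1)) (e x, (t, z)) := by
  have h0 : ContDiffAt ℝ ∞ (fun q : Cm n × (ℝ × Cm R) => psi (e.symm q.1)) (e x, (t, z)) :=
    ContDiffAt.comp (e x, (t, z)) (g := fun y => psi (e.symm y)) (f := Prod.fst)
      (hp e x hx) contDiffAt_fst
  have h0' : ContDiffAt ℝ ∞ (fun q : Cm n × (ℝ × Cm R) => lam (e.symm q.1) q.2.2)
      (e x, (t, z)) :=
    ContDiffAt.comp (e x, (t, z)) (g := fun q : Cm n × Cm R => lam (e.symm q.1) q.2)
      (f := fun q : Cm n × (ℝ × Cm R) => (q.1, q.2.2)) (hl e x hx z)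
      (contDiffAt_fst.prodMk (contDiffAt_snd.comp _ contDiffAt_snd))
  exact (h0'.sub h0).mul (cfdM_joint hw C hp hl s hx t z)

end

end Vale.Agent.P284.H608.D
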