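import Vale.Agent.P284.H608.D.Dens
import Vale.Agent.P284.H619.D.Fub
import Vale.Agent.P284.H988.D.Coef
import Vale.Agent.P284.H661.D.Spec

/-!
# P284 (helper608), project D, module E2: from the identity for determinants to `E2Stmt`
-/

open scoped Topology ContDiff ComplexConjugate ComplexOrder Manifold
open Filter Set MeasureTheory

noncomputable section

namespace Vale.Agent.P284.H608.D

open Vale.Agent.P272.K Vale.Agent.P284.H224.D Vale.Agent.P284.H661.D Vale.Agent.P284.H619.D

/-- the coefficients of a polynomial of degree `≤ n` computed with `n + 2` nodes -/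
lemma cfd_succ {n : ℕ} (s : ℕ) (A B : Matrix (Fin n) (Fin n) ℂ) :
    cfd s A B = ∑ l : Fin (n + 1 + 1), Vale.Agent.P284.H395.cf (n + 1) s l *
      (A + (((l : ℕ) : ℝ) : ℂ) • B).det.re := by
  have h1 := H988.D.cf_poly (m := n) s (H988.D.pD A B) (H988.D.pD_deg A B)
  have h2 := H988.D.cf_poly (m := n + 1) s (H988.D.pD A B) ((H988.D.pD_deg A B).trans (by omega))
  rw [← h2] at h1
  have h3 := congrArg Complex.re h1
  simp only [Complex.re_sum, Complex.re_ofReal_mul, H988.D.pD_eval] at h3
  exact h3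

section
variable {n R : ℕ} {X : Type} [TopologicalSpace X] [ChartedSpace (Cm n) X]
  {lam : X → Cm R → ℝ} {W : Chart n X → Cm n → Matrix (Fin n) (Fin n) ℂ} {psi : X → ℝ}

lemma pcont_detK (hw : IsHermitian W) (C : ℝ) (hl : JSm (n := n) lam) (j : Fin R) :
    PCont (fun (z : Cm R) (e : Chart n X) (y : Cm n) => (KJ C W lam e y z j).det.re) := by
  intro e x hx z
  exact ContinuousAt.comp (f := fun q : Cm R × Cm n => (q.2, q.1)) (x := (z, e x))
    (detK_joint hw C hl hx z j).continuousAt (by fun_prop)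

lemma detu_joint (hw : IsHermitian W) (C : ℝ) (hp : SmoothFn (n := n) psi)
    (hl : JSm (n := n) lam) {e : Chart n X} {x : X} (hx : At e x) (t : ℝ) (z : Cm R) :
    ContDiffAt ℝ ∞ (fun q : Cm n × (ℝ × Cm R) =>
      (lam (e.symm q.1) q.2.2 - psi (e.symm q.1)) *
        (MT C W psi lam q.2.1 e q.1 q.2.2).det.re) (e x, (t, z)) := by
  have h0 : ContDiffAt ℝ ∞ (fun q : Cm n × (ℝ × Cm R) => psi (e.symm q.1)) (e x, (t, z)) :=
    ContDiffAt.comp (e x, (t, z)) (g := fun y => psi (e.symm y)) (f := Prod.fst)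
      (hp e x hx) contDiffAt_fst
  have h0' : ContDiffAt ℝ ∞ (fun q : Cm n × (ℝ × Cm R) => lam (e.symm q.1) q.2.2)
      (e x, (t, z)) :=
    ContDiffAt.comp (e x, (t, z)) (g := fun q : Cm n × Cm R => lam (e.symm q.1) q.2)
      (f := fun q : Cm n × (ℝ × Cm R) => (q.1, q.2.2)) (hl e x hx z)
      (contDiffAt_fst.prodMk (contDiffAt_snd.comp _ contDiffAt_snd))
  exact (h0'.sub h0).mul (detM_joint hw C hp hl hx t z)

lemma pcont_detu (hw : IsHermitian W) (C : ℝ) (hp : SmoothFn (n := n) psi)
    (hl : JSm (n := n) lam) :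
    PCont (fun (p : ℝ × Cm R) (e : Chart n X) (y : Cm n) =>
      (lam (e.symm y) p.2 - psi (e.symm y)) * (MT C W psi lam p.1 e y p.2).det.re) := by
  intro e x hx p
  exact ContinuousAt.comp (f := fun q : (ℝ × Cm R) × Cm n => (q.2, q.1)) (x := (p, e x))
    (detu_joint hw C hp hl hx p.1 p.2).continuousAt (by fun_prop)

lemma isDensity_detu [IsManifold 𝓘(ℂ, Cm n) ω X] (hw : IsHermitian W) (C : ℝ)
    (hp : SmoothFn (n := n) psi) (hl : JSm (n := n) lam) (t : ℝ) (z : Cm R) :
    INT.IsDensity (fun (e : Chart n X) y =>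
      (lam (e.symm y) z - psi (e.symm y)) * (MT C W psi lam t e y z).det.re) :=
  isDensity_smul (isDensity_MT hw C hp hl t z) (f := fun x => lam x z - psi x)
    fun e x hx => (hl.left hx z).sub (hp e x hx)

variable [T2Space X] [CompactSpace X] [IsManifold 𝓘(ℂ, Cm n) ω X]

/-- `∫_X det K` -/
def IK (C : ℝ) (W : Chart n X → Cm n → Matrix (Fin n) (Fin n) ℂ) (lam : X → Cm R → ℝ)
    (j : Fin R) (z : Cm R) : ℝ := INT.intX (fun (e : Chart n X) y => (KJ C W lam e y z j).det.re)

/-- `∫_X (lam - psi) det M_t` -/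
def IU (C : ℝ) (W : Chart n X → Cm n → Matrix (Fin n) (Fin n) ℂ) (psi : X → ℝ)
    (lam : X → Cm R → ℝ) (t : ℝ) (z : Cm R) : ℝ :=
  INT.intX (fun (e : Chart n X) y =>
    (lam (e.symm y) z - psi (e.symm y)) * (MT C W psi lam t e y z).det.re)

lemma IK_cont (hw : IsHermitian W) (C : ℝ) (hl : JSm (n := n) lam) (j : Fin R) :
    Continuous (IK C W lam j) :=
  continuous_intX (pcont_detK hw C hl j)

lemma IU_cont (hw : IsHermitian W) (C : ℝ) (hp : SmoothFn (n := n) psi)
    (hl : JSm (n := n) lam) : Continuous (fun p : ℝ × Cm R => IU C W psi lam p.1 p.2) :=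
  continuous_intX (pcont_detu hw C hp hl)

lemma IU_int_cont (hw : IsHermitian W) (C : ℝ) (hp : SmoothFn (n := n) psi)
    (hl : JSm (n := n) lam) : Continuous (fun z : Cm R => ∫ t in (0 : ℝ)..1, IU C W psi lam t z) := by
  refine intervalIntegral.continuous_parametric_intervalIntegral_of_continuous'
    (f := fun (z : Cm R) (t : ℝ) => IU C W psi lam t z) ?_ 0 1
  exact (IU_cont hw C hp hl).comp (continuous_snd.prodMk continuous_fst)

lemma Hz_eq (hw : IsHermitian W) (C : ℝ) (hl : JSm (n := n) lam) (s : ℕ) (z : Cm R) :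
    Hz s C W lam z = ∑ j : Fin R, ∑ l : Fin (n + 1 + 1),
      Vale.Agent.P284.H395.cf (n + 1) s l * IK (C + ((l : ℕ) : ℝ)) W lam j z := by
  unfold Hz
  refine Finset.sum_congr rfl fun j _ => ?_
  unfold cfd
  rw [INT.intX_sum Finset.univ
    (D := fun (l : Fin (n + 1 + 1)) (e : Chart n X) y => Vale.Agent.P284.H395.cf (n + 1) s l *
      (KJ C W lam e y z j + (((l : ℕ) : ℝ) : ℂ) • hatM (W e y)).det.re)]
  · refine Finset.sum_congr rfl fun l _ => ?_
    rw [INT.intX_const_mul]
    simp only [KJ_add_smul]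
    rfl
  · intro l _
    simp only [KJ_add_smul]
    exact (isDensity_KJ hw _ hl z j).const_mul _

lemma uz_eq (hw : IsHermitian W) (C : ℝ) (hp : SmoothFn (n := n) psi)
    (hl : JSm (n := n) lam) (s : ℕ) (z : Cm R) :
    uz s C W psi lam z = ∑ l : Fin (n + 1 + 1), Vale.Agent.P284.H395.cf (n + 1) s l *
      ∫ t in (0 : ℝ)..1, IU (C + ((l : ℕ) : ℝ)) W psi lam t z := by
  have h1 : ∀ t : ℝ, INT.intX (fun (e : Chart n X) y =>
      (lam (e.symm y) z - psi (e.symm y)) * cfd s (MT C W psi lam t e y z) (W e y)) =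
      ∑ l : Fin (n + 1 + 1), Vale.Agent.P284.H395.cf (n + 1) s l *
        IU (C + ((l : ℕ) : ℝ)) W psi lam t z := by
    intro t
    have h2 : (fun (e : Chart n X) y =>
        (lam (e.symm y) z - psi (e.symm y)) * cfd s (MT C W psi lam t e y z) (W e y)) =
        fun (e : Chart n X) y => ∑ l : Fin (n + 1 + 1), Vale.Agent.P284.H395.cf (n + 1) s l *
          ((lam (e.symm y) z - psi (e.symm y)) *
            (MT (C + ((l : ℕ) : ℝ)) W psi lam t e y z).det.re) := by
      funext e y
      rw [cfd_succ, Finset.mul_sum]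
      refine Finset.sum_congr rfl fun l _ => ?_
      rw [MT_add_smul]
      ring
    rw [h2, INT.intX_sum Finset.univ
      (D := fun (l : Fin (n + 1 + 1)) (e : Chart n X) y => Vale.Agent.P284.H395.cf (n + 1) s l *
          ((lam (e.symm y) z - psi (e.symm y)) *
            (MT (C + ((l : ℕ) : ℝ)) W psi lam t e y z).det.re))]
    · refine Finset.sum_congr rfl fun l _ => ?_
      rw [INT.intX_const_mul]
      rfl
    · intro l _
      exact (isDensity_detu hw _ hp hl t z).const_mul _
  unfold uz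
  simp only [h1]
  rw [intervalIntegral.integral_finsetSum]
  · refine Finset.sum_congr rfl fun l _ => ?_
    rw [intervalIntegral.integral_const_mul]
  · intro l _
    refine Continuous.intervalIntegrable ?_ 0 1
    exact continuous_const.mul ((IU_cont hw _ hp hl).comp (continuous_id.prodMk continuous_const))

/-- **from the identity for determinants to the energy identity** -/
theorem e2_of_core (hw : IsHermitian W) (C : ℝ) (hp : SmoothFn (n := n) psi)
    (hl : JSm (n := n) lam) {χ : Cm R → ℝ} (hχ : ContDiff ℝ ∞ χ) (hc : HasCompactSupport χ)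
    (core : ∀ (C : ℝ) (j : Fin R),
      ∫ z, χ z * INT.intX (fun (e : Chart n X) y => (KJ C W lam e y z j).det.re) =
        ∫ z, (cHess χ z j j).re * ∫ t in (0 : ℝ)..1, INT.intX (fun (e : Chart n X) y =>
          (lam (e.symm y) z - psi (e.symm y)) * (MT C W psi lam t e y z).det.re))
    (s : ℕ) : ∫ z, χ z * Hz s C W lam z = ∫ z, Lap χ z * uz s C W psi lam z := by
  have core' : ∀ (C : ℝ) (j : Fin R), ∫ z, χ z * IK C W lam j z =
      ∫ z, (cHess χ z j j).re * ∫ t in (0 : ℝ)..1, IU C W psi lam t z := core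
  -- integrability
  have i1 : ∀ (C : ℝ) (j : Fin R), Integrable fun z => χ z * IK C W lam j z := fun C j =>
    (hχ.continuous.mul (IK_cont hw C hl j)).integrable_of_hasCompactSupport hc.mul_right
  have hcH : ∀ j : Fin R, Continuous fun z => (cHess χ z j j).re := by
    intro j
    have h1 : ContDiff ℝ ∞ (fun z => cHess χ z j j) := contDiff_iff_contDiffAt.2 fun z =>
      C2.contDiffAt_cHess hχ.contDiffAt (le_of_eq rfl) j j
    exact Complex.continuous_re.comp h1.continuous
  have hsH : ∀ j : Fin R, HasCompactSupport fun z => (cHess χ z j j).re := by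
    intro j
    refine HasCompactSupport.intro hc fun z hz => ?_
    rw [INT.cHess_zero_of_notMem hz]
    simp
  have i2 : ∀ (C : ℝ) (j : Fin R), Integrable fun z =>
      (cHess χ z j j).re * ∫ t in (0 : ℝ)..1, IU C W psi lam t z := fun C j =>
    ((hcH j).mul (IU_int_cont hw C hp hl)).integrable_of_hasCompactSupport (hsH j).mul_right
  have e1 : ∀ z, χ z * Hz s C W lam z = ∑ j : Fin R, ∑ l : Fin (n + 1 + 1),
      Vale.Agent.P284.H395.cf (n + 1) s l * (χ z * IK (C + ((l : ℕ) : ℝ)) W lam j z) := by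
    intro z
    rw [Hz_eq hw C hl, Finset.mul_sum]
    refine Finset.sum_congr rfl fun j _ => ?_
    rw [Finset.mul_sum]
    refine Finset.sum_congr rfl fun l _ => ?_
    ring
  have e2 : ∀ z, Lap χ z * uz s C W psi lam z = ∑ j : Fin R, ∑ l : Fin (n + 1 + 1),
      Vale.Agent.P284.H395.cf (n + 1) s l * ((cHess χ z j j).re *
        ∫ t in (0 : ℝ)..1, IU (C + ((l : ℕ) : ℝ)) W psi lam t z) := by
    intro z
    rw [uz_eq hw C hp hl, Lap, Finset.sum_mul]
    refine Finset.sum_congr rfl fun j _ => ?_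
    rw [Finset.mul_sum]
    refine Finset.sum_congr rfl fun l _ => ?_
    ring
  simp only [e1, e2]
  rw [integral_finsetSum _ fun j _ => integrable_finsetSum _ fun l _ => (i1 _ j).const_mul _,
    integral_finsetSum _ fun j _ => integrable_finsetSum _ fun l _ => (i2 _ j).const_mul _]
  refine Finset.sum_congr rfl fun j _ => ?_
  rw [integral_finsetSum _ fun l _ => (i1 _ j).const_mul _,
    integral_finsetSum _ fun l _ => (i2 _ j).const_mul _]
  refine Finset.sum_congr rfl fun l _ => ?_
  rw [integral_const_mul, integral_const_mul, core']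

end

/-- the energy identity for determinants -/
def CoreStmt : Prop :=
  ∀ (n R : ℕ) (X : Type) [TopologicalSpace X] [T2Space X] [CompactSpace X]
    [ChartedSpace (Cm n) X] [IsManifold 𝓘(ℂ, Cm n) ω X]
    (W : Chart n X → Cm n → Matrix (Fin n) (Fin n) ℂ), IsKahler W →
    ∀ (C : ℝ) (psi : X → ℝ) (lam : X → Cm R → ℝ), SmoothFn (n := n) psi → JSm (n := n) lam →
    ∀ (j : Fin R) (χ : Cm R → ℝ), ContDiff ℝ ∞ χ → HasCompactSupport χ →
      ∫ z, χ z * INT.intX (fun (e : Chart n X) y => (KJ C W lam e y z j).det.re) =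
        ∫ z, (cHess χ z j j).re * ∫ t in (0 : ℝ)..1, INT.intX (fun (e : Chart n X) y =>
          (lam (e.symm y) z - psi (e.symm y)) * (MT C W psi lam t e y z).det.re)

theorem e2_of (h : CoreStmt) : E2Stmt := by
  intro n R X _ _ _ _ _ W hW C psi lam hp hl d₁ _ χ hχ hc
  exact e2_of_core hW.toIsHermitian C hp hl hχ hc
    (fun C j => h n R X W hW C psi lam hp hl j χ hχ hc) d₁

end Vale.Agent.P284.H608.D
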