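import Vale.Agent.P284.H608.SA.Main
import Vale.Agent.P284.H608.K.PiK

/-!
# P284 (helper608), project D: compact Kähler manifolds dominated by complex vector spaces

The final statement, from `SpDomK` (a dominated compact Kähler manifold is special).
-/

open scoped Manifold ContDiff Topology
open Filter Set Metric

noncomputable section

namespace Vale.Agent.P284.H608.D

open Vale.Agent.P272.K Vale.Agent.P284.H248 Vale.Agent.P284.H894 Vale.Agent.P284.H894.G
  Vale.Agent.P284.H894.F Vale.Agent.P284.H894.AE Vale.Agent.P284.H478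

/-- A compact Kähler manifold with a holomorphic map from `ℂᴺ` of rank `n` at one point is special. -/
def SpDomK : Prop :=
  ∀ (n N : ℕ) (X : Type) [TopologicalSpace X] [T2Space X] [CompactSpace X]
    [ConnectedSpace X] [ChartedSpace (Cm n) X] [IsManifold 𝓘(ℂ, Cm n) ω X]
    (w : Chart n X → Cm n → Matrix (Fin n) (Fin n) ℂ), IsKahler w → H174.GD.DomW N n X →
    Special n X

/-- the final statement -/
def DomKStmt : Prop :=
  ∀ (n : ℕ) (X : Type) [TopologicalSpace X] [T2Space X] [CompactSpace X]
    [ConnectedSpace X] [ChartedSpace (Cm n) X] [IsManifold 𝓘(ℂ, Cm n) ω X],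
    (∃ w : Chart n X → Cm n → Matrix (Fin n) (Fin n) ℂ, IsKahler w) →
    (Dominated n X → Special n X ∧ ∀ x : X,
      (∀ (Q : Type) [Group Q] (f : FundamentalGroup X x →* Q), Function.Surjective f → Folner Q →
        VirtAbelianRank Q (2 * n)) ∧
      ((Folner (FundamentalGroup X x) ∨ SubexpGrowth (FundamentalGroup X x) ∨
        AECurveConnected n x ∨ AECurveSpanned n x) →
          VirtAbelianRank (FundamentalGroup X x) (2 * n))) ∧
    (NullSet n {y : X | ¬ Dominable n y} →
      ∀ x : X, VirtAbelianRank (FundamentalGroup X x) (2 * n)) ∧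
    (∀ (N : ℕ) (Φ : Cm N → X), Holo (n := n) Φ → NullSet n (range Φ)ᶜ →
      ∀ x : X, VirtAbelianRank (FundamentalGroup X x) (2 * n))

theorem domK_of (hSp : SpDomK) : DomKStmt := by
  intro n X _ _ _ _ _ _ hX
  obtain ⟨w, hw⟩ := hX
  have h0 : Dominated n X → Special n X ∧ ∀ x : X,
      (∀ (Q : Type) [Group Q] (f : FundamentalGroup X x →* Q), Function.Surjective f → Folner Q →
        VirtAbelianRank Q (2 * n)) ∧
      ((Folner (FundamentalGroup X x) ∨ SubexpGrowth (FundamentalGroup X x) ∨
        AECurveConnected n x ∨ AECurveSpanned n x) →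
          VirtAbelianRank (FundamentalGroup X x) (2 * n)) := by
    intro hD
    obtain ⟨N, hN⟩ := dominated_iff.1 hD
    have hS : Special n X := hSp n N X w hw hN
    refine ⟨hS, fun x => ?_⟩
    obtain ⟨h1, -, h3⟩ := H608.K.pi_ofK H608.SA.t1 hw hS x
    refine ⟨h1, fun h => ?_⟩
    rcases h with h | h
    · exact h1 _ (MonoidHom.id _) Function.surjective_id h
    · exact h3 h
  refine ⟨h0, fun h x => ?_, fun N Φ hΦ hs x => ?_⟩
  · have h1 : Dense {y : X | Dominable n y} := by
      have := dense_of_null h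
      have h2 : {y : X | ¬ Dominable n y}ᶜ = {y : X | Dominable n y} := by
        ext y; simp
      rwa [h2] at this
    obtain ⟨y, hy⟩ := h1.nonempty
    exact ((h0 (dominated_of_dominable hy)).2 x).2 (Or.inr (Or.inr (Or.inr (spanned_of_null h x))))
  · obtain ⟨ζ, hζ⟩ := exists_rank hΦ hs
    exact ((h0 ⟨N, Φ, hΦ, ζ, hζ⟩).2 x).2 (Or.inr (Or.inr (Or.inl (ae_of_range hΦ hs x))))

end Vale.Agent.P284.H608.D
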