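import Vale.Agent.P284.H608.D.Wrap
import Vale.Agent.P284.H224.D.Joint
import Vale.Agent.P284.H66.S7bAlg

/-!
# P284 (helper608), project D, module E2: integration along `psi + t (lam - psi)`

`∫_X det K(lam) = ∫_0^1 ∫_X tr (adj K(t) · HB v) dt`, `v = lam - psi`; and
`tr (adj K(t) · HB χ) = χ_jj det M_t` for a function `χ` of `z` only.
-/

open scoped Topology ContDiff ComplexConjugate ComplexOrder Manifold
open Filter Set MeasureTheory

noncomputable section

namespace Vale.Agent.P284.H608.D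

open Vale.Agent.P272.K Vale.Agent.P284.H224.D Vale.Agent.P284.H661.D Vale.Agent.P284.H619.D

section
variable {n R : ℕ} {X : Type}

/-- `psi + t (lam - psi)` -/
def lt (psi : X → ℝ) (lam : X → Cm R → ℝ) (t : ℝ) (x : X) (z : Cm R) : ℝ :=
  psi x + t * (lam x z - psi x)

/-- `lam - psi` -/
def vv (psi : X → ℝ) (lam : X → Cm R → ℝ) (x : X) (z : Cm R) : ℝ := lam x z - psi x

variable [TopologicalSpace X] [ChartedSpace (Cm n) X]
  {lam : X → Cm R → ℝ} {W : Chart n X → Cm n → Matrix (Fin n) (Fin n) ℂ} {psi : X → ℝ}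

lemma vv_smooth (hp : SmoothFn (n := n) psi) (hl : JSm (n := n) lam) :
    JSm (n := n) (vv psi lam) :=
  JSm.sub hl (JSm.of_smoothFn hp)

lemma lt_smooth (hp : SmoothFn (n := n) psi) (hl : JSm (n := n) lam) (t : ℝ) :
    JSm (n := n) (lt psi lam t) :=
  JSm.add (JSm.of_smoothFn hp) (JSm.const_mul t (vv_smooth hp hl))

lemma HB_add_smul {f g : X → Cm R → ℝ} (hf : JSm (n := n) f) (hg : JSm (n := n) g) (t : ℝ)
    {e : Chart n X} {x : X} (hx : At e x) (z : Cm R) (j : Fin R) :
    HB (fun x z => f x z + t * g x z) e z j (e x) = HB f e z j (e x) + (t : ℂ) • HB g e z j (e x) := by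
  have h1 := (pj_smooth hf hx z j 0).of_le (m := 2) (by norm_cast)
  have h2 := (pj_smooth hg hx z j 0).of_le (m := 2) (by norm_cast)
  unfold HB
  rw [← C2.cHess_const_mul t h2, ← C2.cHess_add h1 (contDiffAt_const.mul h2)]
  rfl

lemma KJ_lt (C : ℝ) (hp : SmoothFn (n := n) psi) (hl : JSm (n := n) lam) (t : ℝ)
    {e : Chart n X} {x : X} (hx : At e x) (z : Cm R) (j : Fin R) :
    KJ C W (lt psi lam t) e (e x) z j =
      KJ C W (fun x _ => psi x) e (e x) z j + (t : ℂ) • HB (vv psi lam) e z j (e x) := by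
  unfold KJ
  rw [add_assoc, ← HB_add_smul (JSm.of_smoothFn hp) (vv_smooth hp hl) t hx z j]
  rfl

omit [TopologicalSpace X] [ChartedSpace (Cm n) X] in
lemma lt_one : lt psi lam 1 = lam := by
  funext x z
  simp [lt]

/-- the last row of `KJ` vanishes for a function of `x` only -/
lemma KJ_psi_last (C : ℝ) (hp : SmoothFn (n := n) psi) {e : Chart n X} {x : X} (hx : At e x)
    (z : Cm R) (j : Fin R) (i : Fin (n + 1)) :
    KJ C W (fun x _ => psi x) e (e x) z j (Fin.last n) i = 0 := by
  have hs := JSm.of_smoothFn (R := R) hp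
  unfold KJ
  rw [Matrix.add_apply, Matrix.smul_apply]
  refine Fin.lastCases ?_ (fun a => ?_) i
  · rw [hatM_ll, HB_ll hs hx]
    have : cHess (fun _ : Cm R => psi x) z j j = 0 := by
      have h := C2.cHess_const_mul (u := fun _ : Cm R => psi x) (z := z) 0 contDiffAt_const
      have h2 : (fun _ : Cm R => 0 * psi x) = fun _ : Cm R => (0 : ℝ) := by funext _; ring
      show dz j (dzb j fun y => ((psi x : ℝ) : ℂ)) z = 0
      have h3 : dzb j (fun _ : Cm R => ((psi x : ℝ) : ℂ)) = fun _ => 0 := by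
        funext y
        simp [dzb]
      rw [h3]
      simp [dz]
    rw [this]
    simp
  · rw [hatM_lc, HB_lc hs hx]
    have h3 : (fun y => dzb j (fun _ : Cm R => ((psi (e.symm y) : ℝ) : ℂ)) z) = fun _ => 0 := by
      funext y
      simp [dzb]
    rw [h3]
    simp [dz]

lemma det_KJ_psi (C : ℝ) (hp : SmoothFn (n := n) psi) {e : Chart n X} {x : X} (hx : At e x)
    (z : Cm R) (j : Fin R) : (KJ C W (fun x _ => psi x) e (e x) z j).det = 0 :=
  Matrix.det_eq_zero_of_row_eq_zero (Fin.last n) fun i => KJ_psi_last C hp hx z j i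

/-- Jacobi's formula -/
lemma hasDeriv_line {m : ℕ} (A B : Matrix (Fin m) (Fin m) ℂ) (s : ℝ) :
    HasDerivAt (fun t : ℝ => (A + (t : ℂ) • B).det.re) (tra (A + (s : ℂ) • B) B) s := by
  have h := INT.hasDerivAt_det_line A B s
  have h2 : (∑ r, ((A + (s : ℂ) • B).updateRow r (B r)).det) =
      ((A + (s : ℂ) • B).adjugate * B).trace := H66.S7.sum_det_row' _ _
  rw [h2] at h
  exact h

lemma tra_cont {m : ℕ} (A B : Matrix (Fin m) (Fin m) ℂ) :
    Continuous fun s : ℝ => tra (A + (s : ℂ) • B) B := by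
  unfold tra
  refine Complex.continuous_re.comp (Continuous.matrix_trace (Continuous.matrix_mul
    (Continuous.matrix_adjugate ?_) continuous_const))
  exact continuous_const.add (Complex.continuous_ofReal.smul continuous_const)

/-- the pointwise identity -/
lemma det_eq_int (C : ℝ) (hp : SmoothFn (n := n) psi) (hl : JSm (n := n) lam)
    {e : Chart n X} {x : X} (hx : At e x) (z : Cm R) (j : Fin R) :
    (KJ C W lam e (e x) z j).det.re = ∫ t in (0 : ℝ)..1,
      tra (KJ C W (lt psi lam t) e (e x) z j) (HB (vv psi lam) e z j (e x)) := by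
  have h1 : ∀ t : ℝ, tra (KJ C W (lt psi lam t) e (e x) z j) (HB (vv psi lam) e z j (e x)) =
      tra (KJ C W (fun x _ => psi x) e (e x) z j + (t : ℂ) • HB (vv psi lam) e z j (e x))
        (HB (vv psi lam) e z j (e x)) := fun t => by rw [KJ_lt C hp hl t hx z j]
  simp only [h1]
  rw [intervalIntegral.integral_eq_sub_of_hasDerivAt (fun t _ => hasDeriv_line _ _ t)
    ((tra_cont _ _).intervalIntegrable 0 1)]
  have h2 := KJ_lt (W := W) C hp hl 1 hx z j
  rw [lt_one] at h2
  rw [h2]
  simp [det_KJ_psi C hp hx z j]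

/-! ### a function of `z` only -/

lemma HB_right {χ : Cm R → ℝ} (hχ : ContDiff ℝ ∞ χ) {e : Chart n X} {x : X} (hx : At e x)
    (z : Cm R) (j : Fin R) :
    HB (fun (_ : X) z => χ z) e z j (e x) =
      Matrix.single (Fin.last n) (Fin.last n) (cHess χ z j j) := by
  have hs : JSm (n := n) (fun (_ : X) z => χ z) := JSm.of_right hχ
  have hcl : ∀ a : Fin n, HB (fun (_ : X) z => χ z) e z j (e x) a.castSucc (Fin.last n) = 0 := by
    intro a
    rw [HB_cl hs hx]
    simp [dz]
  ext i k
  refine Fin.lastCases ?_ (fun a => ?_) i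
  · refine Fin.lastCases ?_ (fun b => ?_) k
    · rw [HB_ll hs hx]
      simp
    · rw [HB_lc hs hx]
      have h1 : (Matrix.single (Fin.last n) (Fin.last n) (cHess χ z j j) :
          Matrix (Fin (n + 1)) (Fin (n + 1)) ℂ) (Fin.last n) b.castSucc = 0 := by
        rw [Matrix.single_apply_of_ne]
        rintro ⟨-, h⟩
        exact (Fin.castSucc_lt_last b).ne h.symm
      rw [h1]
      simp [dz]
  · have h1 : ∀ k, (Matrix.single (Fin.last n) (Fin.last n) (cHess χ z j j) :
        Matrix (Fin (n + 1)) (Fin (n + 1)) ℂ) a.castSucc k = 0 := by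
      intro k
      rw [Matrix.single_apply_of_ne]
      rintro ⟨h, -⟩
      exact (Fin.castSucc_lt_last a).ne h.symm
    rw [h1]
    refine Fin.lastCases ?_ (fun b => ?_) k
    · exact hcl a
    · rw [HB_cc hs hx]
      show dz a (dzb b fun _ : Cm n => ((χ z : ℝ) : ℂ)) (e x) = 0
      have h3 : dzb b (fun _ : Cm n => ((χ z : ℝ) : ℂ)) = fun _ => 0 := by
        funext y
        simp [dzb]
      rw [h3]
      simp [dz]

lemma adj_last {m : ℕ} (A : Matrix (Fin (m + 1)) (Fin (m + 1)) ℂ) :
    A.adjugate (Fin.last m) (Fin.last m) = (A.submatrix Fin.castSucc Fin.castSucc).det := by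
  rw [Matrix.adjugate_fin_succ_eq_det_submatrix]
  have h1 : (Fin.last m).succAbove = (Fin.castSucc : Fin m → Fin (m + 1)) := by
    funext i
    exact Fin.succAbove_last_apply i
  rw [h1]
  have h2 : ((-1 : ℂ)) ^ ((Fin.last m : ℕ) + (Fin.last m : ℕ)) = 1 := by
    rw [← two_mul]
    exact Even.neg_one_pow ⟨_, two_mul _⟩
  rw [h2, one_mul]

lemma tra_single {m : ℕ} (A : Matrix (Fin (m + 1)) (Fin (m + 1)) ℂ) {c : ℂ} (hc : c.im = 0) :
    tra A (Matrix.single (Fin.last m) (Fin.last m) c) =
      c.re * (A.submatrix Fin.castSucc Fin.castSucc).det.re := by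
  unfold tra
  rw [Matrix.trace_mul_single, adj_last]
  simp only [MulOpposite.smul_eq_mul_unop, MulOpposite.unop_op, Complex.mul_re, hc]
  ring

lemma sub_KJ (C : ℝ) (hp : SmoothFn (n := n) psi) (hl : JSm (n := n) lam) (t : ℝ)
    {e : Chart n X} {x : X} (hx : At e x) (z : Cm R) (j : Fin R) :
    (KJ C W (lt psi lam t) e (e x) z j).submatrix Fin.castSucc Fin.castSucc =
      MT C W psi lam t e (e x) z := by
  ext a b
  rw [Matrix.submatrix_apply]
  unfold KJ MT
  rw [Matrix.add_apply, Matrix.smul_apply, hatM_cc, HB_cc (lt_smooth hp hl t) hx,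
    Matrix.add_apply, Matrix.smul_apply]
  rfl

lemma cHess_im {χ : Cm R → ℝ} (hχ : ContDiff ℝ ∞ χ) (z : Cm R) (j : Fin R) :
    (cHess χ z j j).im = 0 := by
  have h := (C2.cHess_isHermitian (u := χ) (z := z) (hχ.contDiffAt.of_le (by norm_cast))).apply j j
  exact Complex.conj_eq_iff_im.1 h

/-- **`tr (adj K(t) · HB χ) = χ_jj det M_t`** -/
theorem tra_right (C : ℝ) (hp : SmoothFn (n := n) psi) (hl : JSm (n := n) lam) (t : ℝ)
    {χ : Cm R → ℝ} (hχ : ContDiff ℝ ∞ χ) {e : Chart n X} {x : X} (hx : At e x)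
    (z : Cm R) (j : Fin R) :
    tra (KJ C W (lt psi lam t) e (e x) z j) (HB (fun (_ : X) z => χ z) e z j (e x)) =
      (cHess χ z j j).re * (MT C W psi lam t e (e x) z).det.re := by
  rw [HB_right hχ hx, tra_single _ (cHess_im hχ z j), sub_KJ C hp hl t hx z j]

/-! ### densities and parameters -/

lemma tra_conj {m : ℕ} (J A H : Matrix (Fin m) (Fin m) ℂ) :
    tra (J.transpose * A * J.map (starRingEnd ℂ)) (J.transpose * H * J.map (starRingEnd ℂ)) =
      tra A H * ‖J.det‖ ^ 2 := by
  have h1 := hasDeriv_line (J.transpose * A * J.map (starRingEnd ℂ))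
    (J.transpose * H * J.map (starRingEnd ℂ)) 0
  have h2 := (hasDeriv_line A H 0).mul_const (‖J.det‖ ^ 2)
  have h3 : ∀ t : ℝ, (J.transpose * A * J.map (starRingEnd ℂ) +
      (t : ℂ) • (J.transpose * H * J.map (starRingEnd ℂ))).det.re =
      (A + (t : ℂ) • H).det.re * ‖J.det‖ ^ 2 := by
    intro t
    rw [← det_conj_re, Matrix.mul_add, Matrix.add_mul, Matrix.mul_smul, Matrix.smul_mul]
  simp only [h3] at h1
  have h4 := h1.unique h2
  simpa using h4

lemma continuousAt_tra {m : ℕ} {T : Type*} [TopologicalSpace T]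
    {A H : T → Matrix (Fin m) (Fin m) ℂ} {q : T} (hA : ∀ i k, ContinuousAt (fun t => A t i k) q)
    (hH : ∀ i k, ContinuousAt (fun t => H t i k) q) : ContinuousAt (fun t => tra (A t) (H t)) q := by
  have hA' : ContinuousAt A q := continuousAt_pi.2 fun i => continuousAt_pi.2 fun k => hA i k
  have hH' : ContinuousAt H q := continuousAt_pi.2 fun i => continuousAt_pi.2 fun k => hH i k
  have hc : Continuous fun p : Matrix (Fin m) (Fin m) ℂ × Matrix (Fin m) (Fin m) ℂ =>
      tra p.1 p.2 := by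
    unfold tra
    exact Complex.continuous_re.comp (Continuous.matrix_trace (Continuous.matrix_mul
      (Continuous.matrix_adjugate continuous_fst) continuous_snd))
  exact ContinuousAt.comp (f := fun t => (A t, H t)) (x := q) hc.continuousAt (hA'.prodMk hH')

/-- **the density `tr (adj K(t) · HB g)`** -/
theorem isDensity_tra [IsManifold 𝓘(ℂ, Cm n) ω X] (hw : IsHermitian W) (C : ℝ)
    {f g : X → Cm R → ℝ} (hf : JSm (n := n) f) (hg : JSm (n := n) g) (z : Cm R) (j : Fin R) :
    INT.IsDensity (fun (e : Chart n X) y => tra (KJ C W f e y z j) (HB g e z j y)) where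
  cont e x hx := continuousAt_tra (fun p i => (KJ_smooth hw C hf hx z j p i).continuousAt)
    (fun p i => (Vale.Agent.P284.H608.D.HB_smooth hg hx z j p i).continuousAt)
  change e e' x hx hx' := by
    show tra (KJ C W f e (e x) z j) (HB g e z j (e x)) =
      tra (KJ C W f e' (e' x) z j) (HB g e' z j (e' x)) * _
    rw [KJ_change hw C hf hx hx' z j, HB_change hg hx hx' z j, tra_conj, det_bd, mul_one]

/-- joint continuity in `(t, z)` -/
theorem pcont_tra (hw : IsHermitian W) (C : ℝ) (hp : SmoothFn (n := n) psi)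
    (hl : JSm (n := n) lam) {g : X → Cm R → ℝ} (hg : JSm (n := n) g) (j : Fin R) :
    PCont (fun (p : ℝ × Cm R) (e : Chart n X) (y : Cm n) =>
      tra (KJ C W (lt psi lam p.1) e y p.2 j) (HB g e p.2 j y)) := by
  intro e x hx p
  have hev : ∀ᶠ q : (ℝ × Cm R) × Cm n in 𝓝 (p, e x), q.2 ∈ e.target :=
    continuousAt_snd.eventually (e.open_target.mem_nhds (e.map_source hx.2))
  have hsw : ContinuousAt (fun q : (ℝ × Cm R) × Cm n => (q.2, q.1.2)) (p, e x) := by fun_prop
  have hHB : ∀ {g : X → Cm R → ℝ}, JSm (n := n) g → ∀ i k, ContinuousAt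
      (fun q : (ℝ × Cm R) × Cm n => HB g e q.1.2 j q.2 i k) (p, e x) := by
    intro g hg i k
    exact ContinuousAt.comp (g := fun q : Cm n × Cm R => HB g e q.2 j q.1 i k)
      (f := fun q : (ℝ × Cm R) × Cm n => (q.2, q.1.2)) (x := (p, e x))
      (HB_joint hg hx p.2 j i k).continuousAt hsw
  refine continuousAt_tra (fun i k => ?_) (fun i k => hHB hg i k)
  have h1 : ContinuousAt (fun q : (ℝ × Cm R) × Cm n =>
      KJ C W (fun x (_ : Cm R) => psi x) e q.2 q.1.2 j i k +
        (q.1.1 : ℂ) * HB (vv psi lam) e q.1.2 j q.2 i k) (p, e x) := by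
    refine ContinuousAt.add ?_ (ContinuousAt.mul ?_ (hHB (vv_smooth hp hl) i k))
    · exact ContinuousAt.comp (g := fun q : Cm n × Cm R =>
        KJ C W (fun x (_ : Cm R) => psi x) e q.1 q.2 j i k)
        (f := fun q : (ℝ × Cm R) × Cm n => (q.2, q.1.2)) (x := (p, e x))
        (KJ_joint hw C (JSm.of_smoothFn hp) hx p.2 j i k).continuousAt hsw
    · exact Complex.continuous_ofReal.continuousAt.comp (by fun_prop)
  refine h1.congr ?_
  filter_upwards [hev] with q hq
  have hx' : At e (e.symm q.2) := ⟨hx.1, e.map_target hq⟩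
  have h2 := KJ_lt (W := W) C hp hl q.1.1 hx' q.1.2 j
  rw [e.right_inv hq] at h2
  rw [h2, Matrix.add_apply, Matrix.smul_apply, smul_eq_mul]

variable [T2Space X] [CompactSpace X] [IsManifold 𝓘(ℂ, Cm n) ω X]

/-- **integration along the path** -/
theorem ftc (hw : IsHermitian W) (C : ℝ) (hp : SmoothFn (n := n) psi)
    (hl : JSm (n := n) lam) (z : Cm R) (j : Fin R) :
    INT.intX (fun (e : Chart n X) y => (KJ C W lam e y z j).det.re) =
      ∫ t in (0 : ℝ)..1, INT.intX (fun (e : Chart n X) y =>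
        tra (KJ C W (lt psi lam t) e y z j) (HB (vv psi lam) e z j y)) := by
  have hP : PCont (fun (t : ℝ) (e : Chart n X) (y : Cm n) =>
      tra (KJ C W (lt psi lam t) e y z j) (HB (vv psi lam) e z j y)) :=
    (pcont_tra hw C hp hl (vv_smooth hp hl) j).comp (g := fun t : ℝ => (t, z)) (by fun_prop)
  rw [interval_intX hP zero_le_one]
  exact INT.intX_congr fun e x hx => det_eq_int C hp hl hx z j

/-- exchange of the integrals -/
theorem swap01 {T : ℝ → Cm R → ℝ} (hT : Continuous fun q : ℝ × Cm R => T q.1 q.2)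
    {χ : Cm R → ℝ} (hχ : Continuous χ) (hc : HasCompactSupport χ) :
    ∫ z, χ z * ∫ t in (0 : ℝ)..1, T t z = ∫ t in (0 : ℝ)..1, ∫ z, χ z * T t z := by
  have h1 : ∀ z, χ z * ∫ t in (0 : ℝ)..1, T t z = ∫ t in Ioc (0 : ℝ) 1, χ z * T t z := by
    intro z
    rw [intervalIntegral.integral_of_le zero_le_one, integral_const_mul]
  simp only [h1]
  rw [intervalIntegral.integral_of_le zero_le_one]
  refine integral_integral_swap (f := fun z t => χ z * T t z) ?_
  set g : Cm R × ℝ → ℝ := fun q => χ q.1 * T q.2 q.1 with hg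
  have hgc : Continuous g :=
    (hχ.comp continuous_fst).mul (hT.comp (continuous_snd.prodMk continuous_fst))
  have h2 : IntegrableOn g (tsupport χ ×ˢ Icc (0 : ℝ) 1) (volume.prod volume) :=
    hgc.continuousOn.integrableOn_compact (hc.isCompact.prod isCompact_Icc)
  have h3 : IntegrableOn g (univ ×ˢ Icc (0 : ℝ) 1) (volume.prod volume) := by
    refine h2.of_forall_sdiff_eq_zero (MeasurableSet.univ.prod measurableSet_Icc) fun q hq => ?_
    have : q.1 ∉ tsupport χ := fun h => hq.2 ⟨h, hq.1.2⟩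
    rw [hg]
    simp only
    rw [image_eq_zero_of_notMem_tsupport this, zero_mul]
  have h4 : IntegrableOn g (univ ×ˢ Ioc (0 : ℝ) 1) (volume.prod volume) :=
    h3.mono_set (prod_mono Subset.rfl Ioc_subset_Icc_self)
  have h5 : (volume : Measure (Cm R)).prod (volume.restrict (Ioc (0 : ℝ) 1)) =
      ((volume : Measure (Cm R)).prod volume).restrict (univ ×ˢ Ioc (0 : ℝ) 1) := by
    rw [← Measure.prod_restrict, Measure.restrict_univ]
  rw [h5]
  exact h4

/-- **the core, from Green's formula for every `t`** -/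
theorem core_of_green (hw : IsHermitian W) (C : ℝ) (hp : SmoothFn (n := n) psi)
    (hl : JSm (n := n) lam) (j : Fin R) {χ : Cm R → ℝ} (hχ : ContDiff ℝ ∞ χ)
    (hc : HasCompactSupport χ)
    (green : ∀ t : ℝ, ∫ z, χ z * INT.intX (fun (e : Chart n X) y =>
        tra (KJ C W (lt psi lam t) e y z j) (HB (vv psi lam) e z j y)) =
      ∫ z, INT.intX (fun (e : Chart n X) y => vv psi lam (e.symm y) z *
        tra (KJ C W (lt psi lam t) e y z j) (HB (fun (_ : X) z => χ z) e z j y))) :
    ∫ z, χ z * INT.intX (fun (e : Chart n X) y => (KJ C W lam e y z j).det.re) =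
      ∫ z, (cHess χ z j j).re * ∫ t in (0 : ℝ)..1, INT.intX (fun (e : Chart n X) y =>
        (lam (e.symm y) z - psi (e.symm y)) * (MT C W psi lam t e y z).det.re) := by
  have hcH : Continuous fun z => (cHess χ z j j).re := by
    have h1 : ContDiff ℝ ∞ (fun z => cHess χ z j j) := contDiff_iff_contDiffAt.2 fun z =>
      C2.contDiffAt_cHess hχ.contDiffAt (le_of_eq rfl) j j
    exact Complex.continuous_re.comp h1.continuous
  have hsH : HasCompactSupport fun z => (cHess χ z j j).re := by
    refine HasCompactSupport.intro hc fun z hz => ?_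
    rw [INT.cHess_zero_of_notMem hz]
    simp
  simp only [ftc hw C hp hl _ j]
  have hT1 : Continuous fun q : ℝ × Cm R => INT.intX (fun (e : Chart n X) y =>
      tra (KJ C W (lt psi lam q.1) e y q.2 j) (HB (vv psi lam) e q.2 j y)) :=
    continuous_intX (pcont_tra hw C hp hl (vv_smooth hp hl) j)
  rw [swap01 (T := fun t z => INT.intX (fun (e : Chart n X) y =>
    tra (KJ C W (lt psi lam t) e y z j) (HB (vv psi lam) e z j y))) hT1 hχ.continuous hc,
    swap01 (T := fun t z => INT.intX (fun (e : Chart n X) y =>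
      (lam (e.symm y) z - psi (e.symm y)) * (MT C W psi lam t e y z).det.re))
      (IU_cont hw C hp hl) hcH hsH]
  refine intervalIntegral.integral_congr fun t _ => ?_
  show ∫ z, χ z * INT.intX (fun (e : Chart n X) y =>
    tra (KJ C W (lt psi lam t) e y z j) (HB (vv psi lam) e z j y)) = _
  rw [green t]
  refine integral_congr_ae (Eventually.of_forall fun z => ?_)
  show INT.intX (fun (e : Chart n X) y => vv psi lam (e.symm y) z *
        tra (KJ C W (lt psi lam t) e y z j) (HB (fun (_ : X) z => χ z) e z j y)) =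
    (cHess χ z j j).re * INT.intX (fun (e : Chart n X) y =>
      (lam (e.symm y) z - psi (e.symm y)) * (MT C W psi lam t e y z).det.re)
  rw [← INT.intX_const_mul]
  refine INT.intX_congr fun e x hx => ?_
  show vv psi lam (e.symm (e x)) z *
        tra (KJ C W (lt psi lam t) e (e x) z j) (HB (fun (_ : X) z => χ z) e z j (e x)) =
    (cHess χ z j j).re * ((lam (e.symm (e x)) z - psi (e.symm (e x))) *
      (MT C W psi lam t e (e x) z).det.re)
  rw [tra_right C hp hl t hχ hx z j]
  unfold vv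
  ring

end

end Vale.Agent.P284.H608.D
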