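import Vale.Agent.P284.H608.D.Ftc

/-!
# P284 (helper608), project D, module E2: Green's formula on `X × ℂᴿ` from its local form
-/

open scoped Topology ContDiff ComplexConjugate ComplexOrder Manifold
open Filter Set MeasureTheory

noncomputable section

namespace Vale.Agent.P284.H608.D

open Vale.Agent.P272.K Vale.Agent.P284.H224.D Vale.Agent.P284.H661.D Vale.Agent.P284.H619.D

/-- the local form of Green's formula -/
def PieceStmt : Prop :=
  ∀ (n R : ℕ) (X : Type) [TopologicalSpace X] [T2Space X] [CompactSpace X]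
    [ChartedSpace (Cm n) X] [IsManifold 𝓘(ℂ, Cm n) ω X]
    (W : Chart n X → Cm n → Matrix (Fin n) (Fin n) ℂ), IsKahler W →
    ∀ (C : ℝ) (f g : X → Cm R → ℝ), JSm (n := n) f → JSm (n := n) g →
    ∀ (j : Fin R) (χ : Cm R → ℝ), ContDiff ℝ ∞ χ → HasCompactSupport χ →
    ∀ e₀ : Chart n X, e₀ ∈ atlas (Cm n) X → ∀ ρ : X → ℝ, SmoothFn (n := n) ρ → Continuous ρ →
      tsupport ρ ⊆ e₀.source →
      ∫ z, INT.intX (fun (e : Chart n X) y =>
          ρ (e.symm y) * χ z * tra (KJ C W f e y z j) (HB g e z j y)) =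
        ∫ z, INT.intX (fun (e : Chart n X) y =>
          g (e.symm y) z * tra (KJ C W f e y z j) (HB (fun x z => ρ x * χ z) e z j y))

section
variable {n R : ℕ} {X : Type} [TopologicalSpace X] [ChartedSpace (Cm n) X]
  {W : Chart n X → Cm n → Matrix (Fin n) (Fin n) ℂ} {f g : X → Cm R → ℝ}

lemma prod_smooth {ρ : X → ℝ} (hρ : SmoothFn (n := n) ρ) {χ : Cm R → ℝ} (hχ : ContDiff ℝ ∞ χ) :
    JSm (n := n) (fun x z => ρ x * χ z) :=
  JSm.mul (JSm.of_smoothFn hρ) (JSm.of_right hχ)

/-- joint continuity in `z` -/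
theorem pcont_traz (hw : IsHermitian W) (C : ℝ) (hf : JSm (n := n) f) (hg : JSm (n := n) g)
    (j : Fin R) : PCont (fun (z : Cm R) (e : Chart n X) (y : Cm n) =>
      tra (KJ C W f e y z j) (HB g e z j y)) := by
  intro e x hx z
  have hsw : ContinuousAt (fun q : Cm R × Cm n => (q.2, q.1)) (z, e x) := by fun_prop
  refine continuousAt_tra (fun i k => ?_) (fun i k => ?_)
  · exact ContinuousAt.comp (g := fun q : Cm n × Cm R => KJ C W f e q.1 q.2 j i k)
      (f := fun q : Cm R × Cm n => (q.2, q.1)) (x := (z, e x))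
      (KJ_joint hw C hf hx z j i k).continuousAt hsw
  · exact ContinuousAt.comp (g := fun q : Cm n × Cm R => HB g e q.2 j q.1 i k)
      (f := fun q : Cm R × Cm n => (q.2, q.1)) (x := (z, e x))
      (HB_joint hg hx z j i k).continuousAt hsw

theorem pcont_JSm (hg : JSm (n := n) g) :
    PCont (fun (z : Cm R) (e : Chart n X) (y : Cm n) => g (e.symm y) z) := by
  intro e x hx z
  exact ContinuousAt.comp (g := fun q : Cm n × Cm R => g (e.symm q.1) q.2)
    (f := fun q : Cm R × Cm n => (q.2, q.1)) (x := (z, e x)) (hg e x hx z).continuousAt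
    (by fun_prop)

lemma tra_sum {m : ℕ} {ι : Type*} (s : Finset ι) (A : Matrix (Fin m) (Fin m) ℂ)
    (H : ι → Matrix (Fin m) (Fin m) ℂ) : tra A (∑ i ∈ s, H i) = ∑ i ∈ s, tra A (H i) := by
  unfold tra
  rw [Matrix.mul_sum, Matrix.trace_sum, Complex.re_sum]

lemma HB_sum {ι : Type*} (s : Finset ι) {h : ι → X → Cm R → ℝ}
    (hh : ∀ i, JSm (n := n) (h i)) {e : Chart n X} {x : X} (hx : At e x) (z : Cm R) (j : Fin R) :
    HB (fun x z => ∑ i ∈ s, h i x z) e z j (e x) = ∑ i ∈ s, HB (h i) e z j (e x) := by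
  classical
  have hJ : ∀ s : Finset ι, JSm (n := n) (fun x z => ∑ i ∈ s, h i x z) := by
    intro s e x hx z
    exact ContDiffAt.sum fun i _ => hh i e x hx z
  induction s using Finset.induction_on with
  | empty =>
    simp only [Finset.sum_empty]
    have h1 := HB_add_smul (JSm.of_right (X := X) (n := n) (χ := fun _ : Cm R => (0 : ℝ))
      contDiff_const) (JSm.of_right (X := X) (n := n) (χ := fun _ : Cm R => (0 : ℝ))
      contDiff_const) 1 hx z j
    have h2 : (fun (_ : X) (_ : Cm R) => (0 : ℝ) + 1 * 0) = fun _ _ => (0 : ℝ) := by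
      funext _ _; ring
    rw [h2, Complex.ofReal_one, one_smul] at h1
    have h3 := h1.symm
    rwa [add_eq_left] at h3
  | insert a s ha ih =>
    rw [Finset.sum_insert ha, ← ih]
    have h1 := HB_add_smul (hh a) (hJ s) 1 hx z j
    rw [Complex.ofReal_one, one_smul] at h1
    rw [← h1]
    congr 1
    funext x z
    rw [Finset.sum_insert ha, one_mul]

omit [ChartedSpace (Cm n) X] in
lemma HB_zero_off {ρ : X → ℝ} {χ : Cm R → ℝ} {z : Cm R} (hz : z ∉ tsupport χ) (e : Chart n X)
    (y : Cm n) (j : Fin R) : HB (fun x z => ρ x * χ z) e z j y = 0 := by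
  unfold HB
  apply INT.cHess_zero_of_notMem
  rw [notMem_tsupport_iff_eventuallyEq]
  have h1 : χ =ᶠ[𝓝 z] 0 := notMem_tsupport_iff_eventuallyEq.1 hz
  have hc : ContinuousAt (fun ζ : Cm (n + 1) => z + Pi.single j (ζ (Fin.last n)))
      (Fin.snoc y 0 : Cm (n + 1)) :=
    (continuous_snd.comp (am_smooth (n := n) z j).continuous).continuousAt
  have hz0 : z + Pi.single j ((Fin.snoc y 0 : Cm (n + 1)) (Fin.last n)) = z := by simp
  have h2 : ∀ᶠ ζ in 𝓝 (Fin.snoc y 0 : Cm (n + 1)),
      χ (z + Pi.single j (ζ (Fin.last n))) = 0 := by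
    have h3 : ∀ᶠ z' in 𝓝 (z + Pi.single j ((Fin.snoc y 0 : Cm (n + 1)) (Fin.last n))),
        χ z' = 0 := by
      rw [hz0]
      exact h1
    exact hc.eventually h3
  filter_upwards [h2] with ζ hζ
  simp only [pj, hζ, mul_zero, Pi.zero_apply]

variable [T2Space X] [CompactSpace X] [IsManifold 𝓘(ℂ, Cm n) ω X]

/-- **Green's formula on `X × ℂᴿ` from its local form** -/
theorem green_of_piece (hP : PieceStmt) (hW : IsKahler W) (C : ℝ) (hf : JSm (n := n) f)
    (hg : JSm (n := n) g) (j : Fin R) {χ : Cm R → ℝ} (hχ : ContDiff ℝ ∞ χ)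
    (hc : HasCompactSupport χ) :
    ∫ z, χ z * INT.intX (fun (e : Chart n X) y => tra (KJ C W f e y z j) (HB g e z j y)) =
      ∫ z, INT.intX (fun (e : Chart n X) y =>
        g (e.symm y) z * tra (KJ C W f e y z j) (HB (fun (_ : X) z => χ z) e z j y)) := by
  set P := INT.part n X with hPart
  have hw := hW.toIsHermitian
  -- the left-hand side
  have hdl : ∀ (z : Cm R) i, INT.IsDensity (fun (e : Chart n X) y =>
      P.ρ i (e.symm y) * χ z * tra (KJ C W f e y z j) (HB g e z j y)) := by
    intro z i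
    have h1 := (isDensity_smul (isDensity_tra hw C hf hg z j) (P.smooth i)).const_mul (χ z)
    refine ⟨fun e x hx => ?_, fun e e' x hx hx' => ?_⟩
    · refine (h1.cont e x hx).congr (Eventually.of_forall fun y => ?_)
      ring
    · have h2 := h1.change e e' x hx hx'
      show P.ρ i (e.symm (e x)) * χ z * tra (KJ C W f e (e x) z j) (HB g e z j (e x)) =
        P.ρ i (e'.symm (e' x)) * χ z * tra (KJ C W f e' (e' x) z j) (HB g e' z j (e' x)) * _
      linear_combination h2
  have hl : ∀ z : Cm R, χ z * INT.intX (fun (e : Chart n X) y =>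
      tra (KJ C W f e y z j) (HB g e z j y)) = ∑ i, INT.intX (fun (e : Chart n X) y =>
      P.ρ i (e.symm y) * χ z * tra (KJ C W f e y z j) (HB g e z j y)) := by
    intro z
    rw [← INT.intX_const_mul, ← INT.intX_sum _ fun i _ => hdl z i]
    congr 1
    funext e y
    rw [← Finset.sum_mul, ← Finset.sum_mul, P.sum, one_mul]
  have hil : ∀ i, Integrable (fun z : Cm R => INT.intX (fun (e : Chart n X) y =>
      P.ρ i (e.symm y) * χ z * tra (KJ C W f e y z j) (HB g e z j y))) := by
    intro i
    have h1 : (fun z : Cm R => INT.intX (fun (e : Chart n X) y =>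
        P.ρ i (e.symm y) * χ z * tra (KJ C W f e y z j) (HB g e z j y))) =
        fun z => χ z * INT.intX (fun (e : Chart n X) y =>
          P.ρ i (e.symm y) * tra (KJ C W f e y z j) (HB g e z j y)) := by
      funext z
      rw [← INT.intX_const_mul]
      congr 1
      funext e y
      ring
    rw [h1]
    refine (hχ.continuous.mul (continuous_intX ?_)).integrable_of_hasCompactSupport hc.mul_right
    exact (pcont_traz hw C hf hg j).smul (f := fun _ x => P.ρ i x)
      ((P.cont i).comp continuous_snd)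
  -- the right-hand side
  have hdr : ∀ (z : Cm R) i, INT.IsDensity (fun (e : Chart n X) y =>
      g (e.symm y) z * tra (KJ C W f e y z j) (HB (fun x z => P.ρ i x * χ z) e z j y)) :=
    fun z i => isDensity_smul (isDensity_tra hw C hf (prod_smooth (P.smooth i) hχ) z j)
      (f := fun x => g x z) fun e x hx => hg.left hx z
  have hr : ∀ z : Cm R, INT.intX (fun (e : Chart n X) y =>
      g (e.symm y) z * tra (KJ C W f e y z j) (HB (fun (_ : X) z => χ z) e z j y)) =
      ∑ i, INT.intX (fun (e : Chart n X) y =>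
        g (e.symm y) z * tra (KJ C W f e y z j) (HB (fun x z => P.ρ i x * χ z) e z j y)) := by
    intro z
    rw [← INT.intX_sum _ fun i _ => hdr z i]
    refine INT.intX_congr fun e x hx => ?_
    rw [← Finset.mul_sum, ← tra_sum, ← HB_sum Finset.univ
      (h := fun i x z => P.ρ i x * χ z) (fun i => prod_smooth (P.smooth i) hχ) hx z j]
    have h1 : (fun (_ : X) z => χ z) = fun x z => ∑ i, P.ρ i x * χ z := by
      funext x z
      rw [← Finset.sum_mul, P.sum, one_mul]
    rw [h1]
  have hir : ∀ i, Integrable (fun z : Cm R => INT.intX (fun (e : Chart n X) y =>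
      g (e.symm y) z * tra (KJ C W f e y z j) (HB (fun x z => P.ρ i x * χ z) e z j y))) := by
    intro i
    have hcont : Continuous (fun z : Cm R => INT.intX (fun (e : Chart n X) y =>
        g (e.symm y) z * tra (KJ C W f e y z j) (HB (fun x z => P.ρ i x * χ z) e z j y))) :=
      continuous_intX ((pcont_JSm hg).mul (pcont_traz hw C hf (prod_smooth (P.smooth i) hχ) j))
    refine hcont.integrable_of_hasCompactSupport (HasCompactSupport.intro hc fun z hz => ?_)
    have h0 : ∀ (e : Chart n X) (y : Cm n), g (e.symm y) z *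
        tra (KJ C W f e y z j) (HB (fun x z => P.ρ i x * χ z) e z j y) = 0 := by
      intro e y
      rw [HB_zero_off hz]
      simp [tra]
    simp only [h0]
    exact INT.intX_zero
  simp only [hl, hr]
  rw [integral_finsetSum _ fun i _ => hil i, integral_finsetSum _ fun i _ => hir i]
  exact Finset.sum_congr rfl fun i _ => hP n R X W hW C f g hf hg j χ hχ hc (P.e i) (P.mem i)
    (P.ρ i) (P.smooth i) (P.cont i) (P.supp i)

end

/-- **the energy identity, from the local form of Green's formula** -/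
theorem e2_of_piece (hP : PieceStmt) : E2Stmt := by
  refine e2_of ?_
  intro n R X _ _ _ _ _ W hW C psi lam hp hl j χ hχ hc
  exact core_of_green hW.toIsHermitian C hp hl j hχ hc fun t =>
    green_of_piece hP hW C (lt_smooth hp hl t) (vv_smooth hp hl) j hχ hc

end Vale.Agent.P284.H608.D
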